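import Vale.Agent.P106.U.Cell
import Vale.Agent.P127.U.H715.Gen

/-!
# P106 / U / H300 : generic offsets (helper300)

`gen` : for every finite list of pairs `(i, b)` there are offsets `o ∈ (0,1]^7` such that the average
probability of the events `Bad K i b` is at most `14 K 2^-μ`.
-/

set_option autoImplicit false

namespace Vale.Agent.P106.U.H300

open Finset Vale.Agent.P127 Vale.Agent.P127.Stk Vale.Agent.P106.U.Cell
open Vale.Agent.P127.U.CellD (q2 rd Nb q2_pos q2_add q2_mul_pow)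
open Vale.Agent.P127.U.H715 (cnt gen_shift fl1_eq_of_cnt cnt_nonneg)

/-- the same path with the offsets `o` -/
def wo {Ω τ : Type} (C : Pth Ω τ) (o : Fin 7 → ℝ) : Pth Ω τ := { C with o := o }

variable {Ω τ : Type} [Fintype Ω] {ι : Type*}

/-- one number, one offset -/
theorem gen_one (P : Law Ω) (S : Finset ι) (n : ι → ℕ) (z : ι → Ω → ℝ) {K : ℝ} (hK : 0 ≤ K)
    (μ : ℕ) : ∃ ξ : ℝ, 0 < ξ ∧ ξ ≤ 1 ∧
      ∑ x ∈ S, prE P (fun ω => Nb (n x) (z x ω + ξ) (K * q2 (n x + μ))) ≤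
        2 * K * S.card * q2 μ := by
  classical
  obtain ⟨ξ, h0, h1, h2⟩ := gen_shift P S (fun x _ => n x)
    (fun x ω => z x ω - K * q2 (n x + μ)) (fun x _ => 2 * (K * q2 (n x + μ)))
  refine ⟨ξ, h0, h1, ?_⟩
  have e : ∑ x ∈ S, P.ex (fun _ => (2 : ℝ) ^ (n x) * (2 * (K * q2 (n x + μ)))) =
      2 * K * S.card * q2 μ := by
    have : ∀ x ∈ S, P.ex (fun _ => (2 : ℝ) ^ (n x) * (2 * (K * q2 (n x + μ)))) =
        2 * K * q2 μ := by
      intro x _
      have e1 : (2 : ℝ) ^ (n x) * (2 * (K * q2 (n x + μ))) = 2 * K * q2 μ := by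
        rw [q2_add]
        have := q2_mul_pow (n x)
        calc (2 : ℝ) ^ (n x) * (2 * (K * (q2 (n x) * q2 μ))) =
            2 * K * q2 μ * ((2 : ℝ) ^ (n x) * q2 (n x)) := by ring
          _ = _ := by rw [this, mul_one]
      unfold Law.ex
      rw [← Finset.sum_mul, P.sum_one, one_mul, e1]
    rw [Finset.sum_congr rfl this, Finset.sum_const, nsmul_eq_mul]
    ring
  rw [e] at h2
  refine le_trans ?_ h2
  refine Finset.sum_le_sum fun x _ => ?_
  unfold prE Law.ex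
  rw [Finset.sum_filter]
  refine Finset.sum_le_sum fun ω _ => ?_
  have hη : 0 ≤ 2 * (K * q2 (n x + μ)) := by
    have := (q2_pos (n x + μ)).le
    positivity
  split_ifs with hE
  · obtain ⟨y, h3, h4, h5⟩ := hE
    have h6 : 1 ≤ cnt (n x) (z x ω - K * q2 (n x + μ) + ξ) (2 * (K * q2 (n x + μ))) := by
      by_contra hlt
      refine h5 ?_
      have := fl1_eq_of_cnt (y := y) _ (not_le.1 hlt) (by linarith) (by linarith)
      rw [this]
      congr 1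
      ring
    nlinarith [P.nn ω]
  · exact mul_nonneg (P.nn ω) (cnt_nonneg _ _ hη)

theorem prE_exists_fin (P : Law Ω) (E : Fin 7 → Ω → Prop) :
    prE P (fun ω => ∃ k, E k ω) ≤ ∑ k, prE P (E k) := by
  classical
  unfold prE
  simp only [Finset.sum_filter]
  rw [Finset.sum_comm]
  refine Finset.sum_le_sum fun ω _ => ?_
  split_ifs with h
  · obtain ⟨k, hk⟩ := h
    refine le_trans (le_of_eq (if_pos hk).symm) (Finset.single_le_sum
      (f := fun k => if E k ω then P.w ω else 0) (fun j _ => ?_) (Finset.mem_univ k))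
    split_ifs
    · exact P.nn ω
    · exact le_rfl
  · refine Finset.sum_nonneg fun j _ => ?_
    split_ifs
    · exact P.nn ω
    · exact le_rfl

omit [Fintype Ω] in
theorem va1 (C : Pth Ω τ) (i b : ℕ) (ω : Ω) : C.va i b ω 1 = (C.l ω).w := rfl
omit [Fintype Ω] in
theorem va4 (C : Pth Ω τ) (i b : ℕ) (ω : Ω) : C.va i b ω 4 = C.sl i b ω := rfl
omit [Fintype Ω] in
theorem wo_l (C : Pth Ω τ) (o : Fin 7 → ℝ) : (wo C o).l = C.l := rfl
omit [Fintype Ω] in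
theorem wo_s (C : Pth Ω τ) (o : Fin 7 → ℝ) : (wo C o).s = C.s := by
  funext i ω; unfold Pth.s; rfl
omit [Fintype Ω] in
theorem wo_μ (C : Pth Ω τ) (o : Fin 7 → ℝ) : (wo C o).μ = C.μ := rfl
omit [Fintype Ω] in
theorem wo_F (C : Pth Ω τ) (o : Fin 7 → ℝ) : (wo C o).F = C.F := by
  funext i ω; unfold Pth.F Pth.Fv Pth.tv; rfl
omit [Fintype Ω] in
theorem wo_bs (C : Pth Ω τ) (o : Fin 7 → ℝ) : (wo C o).bs = C.bs := by
  funext i b; unfold Pth.bs; rfl
omit [Fintype Ω] in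
theorem wo_R (C : Pth Ω τ) (o : Fin 7 → ℝ) : (wo C o).R = C.R := by
  funext i b; unfold Pth.R; rw [wo_bs]; rfl
omit [Fintype Ω] in
theorem wo_sl (C : Pth Ω τ) (o : Fin 7 → ℝ) : (wo C o).sl = C.sl := by
  funext i b ω; unfold Pth.sl; rw [wo_F, wo_bs, wo_l]
omit [Fintype Ω] in
theorem wo_lv (C : Pth Ω τ) (o : Fin 7 → ℝ) : (wo C o).lv = C.lv := by
  funext i b; unfold Pth.lv; rw [wo_R]; rfl
omit [Fintype Ω] in
theorem wo_va1 (C : Pth Ω τ) (o : Fin 7 → ℝ) (i b : ℕ) (ω : Ω) :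
    (wo C o).va i b ω 1 = C.va i b ω 1 := by rw [va1, va1, wo_l]
omit [Fintype Ω] in
theorem wo_va4 (C : Pth Ω τ) (o : Fin 7 → ℝ) (i b : ℕ) (ω : Ω) :
    (wo C o).va i b ω 4 = C.va i b ω 4 := by rw [va4, va4, wo_sl]
omit [Fintype Ω] in
theorem wo_va (C : Pth Ω τ) {o o' : Fin 7 → ℝ} (h1 : o 1 = o' 1) (h4 : o 4 = o' 4) (i b : ℕ)
    (ω : Ω) : (wo C o).va i b ω = (wo C o').va i b ω := by
  have e1 : ∀ n y, (wo C o).ro 1 n y = (wo C o').ro 1 n y := by
    intro n y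
    show rd n (y + o 1) - o 1 = rd n (y + o' 1) - o' 1
    rw [h1]
  have e4 : ∀ n y, (wo C o).ro 4 n y = (wo C o').ro 4 n y := by
    intro n y
    show rd n (y + o 4) - o 4 = rd n (y + o' 4) - o' 4
    rw [h4]
  have e5 : ∀ m, (wo C o).Fr i b m ω = (wo C o').Fr i b m ω := by
    intro m
    unfold Pth.Fr
    rw [e4, wo_F, wo_F, wo_sl, wo_sl, wo_bs, wo_bs, wo_l, wo_l]
  have e6 : ∀ s, (wo C o).Zs b s ω = (wo C o').Zs b s ω := by
    intro s
    unfold Pth.Zs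
    rw [e1, wo_l, wo_l, wo_μ, wo_μ]
  unfold Pth.va
  rw [e5, e6, wo_s, wo_s, wo_sl, wo_sl, wo_l, wo_l, wo_R, wo_R, wo_μ, wo_μ]

omit [Fintype Ω] in
/-- normalisation and compatibility do not involve the offsets -/
theorem wo_Ok (C : Pth Ω τ) (o : Fin 7 → ℝ) (K : ℝ) (ω : Ω) (h : C.Ok K ω) : (wo C o).Ok K ω where
  v1 := h.v1
  w1 := h.w1
  p1 := h.p1
  n1 := by rw [wo_F, wo_l, wo_s]; exact h.n1
  n2 := by rw [wo_F, wo_l, wo_s]; exact h.n2
  k1 := by rw [wo_F]; exact h.k1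
  a1 := by rw [wo_F]; exact h.a1
  ag := by rw [wo_F, wo_l, wo_s]; exact h.ag

omit [Fintype Ω] in
theorem wo_Lev (C : Pth Ω τ) (o : Fin 7 → ℝ) (i b : ℕ) : (wo C o).Lev i b ↔ C.Lev i b := by
  unfold Pth.Lev
  rw [wo_R, wo_μ]

/-- **[GEN]** generic offsets -/
theorem gen (P : Law Ω) (C : Pth Ω τ) (S : Finset ι) (i b : ι → ℕ) {K : ℝ} (hK : 0 ≤ K) :
    ∃ o : Fin 7 → ℝ, (∀ k, 0 < o k ∧ o k ≤ 1) ∧
      ∑ x ∈ S, prE P ((wo C o).Bad K (i x) (b x)) ≤ 14 * K * S.card * q2 C.μ := by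
  classical
  obtain ⟨o1, p1, q1, g1⟩ := gen_one P S (fun x => C.lv (i x) (b x) 1)
    (fun x ω => C.va (i x) (b x) ω 1) hK C.μ
  obtain ⟨o4, p4, q4, g4⟩ := gen_one P S (fun x => C.lv (i x) (b x) 4)
    (fun x ω => C.va (i x) (b x) ω 4) hK C.μ
  set o' : Fin 7 → ℝ := fun k => if k = 1 then o1 else o4 with ho'
  have key : ∀ k : Fin 7, ∃ ξ : ℝ, (k = 1 → ξ = o1) ∧ (k = 4 → ξ = o4) ∧ 0 < ξ ∧ ξ ≤ 1 ∧
      ∑ x ∈ S, prE P (fun ω => Nb (C.lv (i x) (b x) k) ((wo C o').va (i x) (b x) ω k + ξ)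
        (K * q2 (C.lv (i x) (b x) k + C.μ))) ≤ 2 * K * S.card * q2 C.μ := by
    intro k
    by_cases h1 : k = 1
    · subst h1
      refine ⟨o1, fun _ => rfl, fun h => absurd h (by decide), p1, q1, ?_⟩
      simp only [wo_va1]
      exact g1
    by_cases h4 : k = 4
    · subst h4
      refine ⟨o4, fun h => absurd h (by decide), fun _ => rfl, p4, q4, ?_⟩
      simp only [wo_va4]
      exact g4
    obtain ⟨ξ, h5, h6, h7⟩ := gen_one P S (fun x => C.lv (i x) (b x) k)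
      (fun x ω => (wo C o').va (i x) (b x) ω k) hK C.μ
    exact ⟨ξ, fun h => absurd h h1, fun h => absurd h h4, h5, h6, h7⟩
  choose o e1 e4 hp hq hg using key
  refine ⟨o, fun k => ⟨hp k, hq k⟩, ?_⟩
  have h1 : o 1 = o' 1 := by rw [e1 1 rfl, ho']; simp
  have h4 : o 4 = o' 4 := by rw [e4 4 rfl, ho']; simp
  have h : ∀ x ∈ S, prE P ((wo C o).Bad K (i x) (b x)) ≤
      ∑ k, prE P (fun ω => Nb (C.lv (i x) (b x) k) ((wo C o').va (i x) (b x) ω k + o k)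
        (K * q2 (C.lv (i x) (b x) k + C.μ))) := by
    intro x _
    have := prE_exists_fin P (fun k ω => Nb ((wo C o).lv (i x) (b x) k)
      ((wo C o).va (i x) (b x) ω k + o k) (K * q2 ((wo C o).lv (i x) (b x) k + C.μ)))
    simp only [wo_lv, wo_va C h1 h4] at this
    refine le_trans (le_of_eq ?_) this
    congr 1
    funext ω
    unfold Pth.Bad
    rw [wo_lv, wo_va C h1 h4, wo_μ]
    rfl
  refine (Finset.sum_le_sum h).trans ?_
  rw [Finset.sum_comm]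
  refine (Finset.sum_le_sum fun k _ => hg k).trans (le_of_eq ?_)
  rw [Finset.sum_const, Finset.card_univ, Fintype.card_fin, nsmul_eq_mul]
  push_cast
  ring

end Vale.Agent.P106.U.H300
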