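import Vale.Agent.P106.U.H300.Gen
import Vale.Agent.P106.U.H420.F2

/-!
# P106 / U / H300 : generic offsets with an arbitrary extra family for the offset `o 4`

`genX` : the extra family consists of numbers `z x` with level `n x` and radius `r x`; the numbers do
not depend on the offsets.  `gen3` : the events `Bad` (all seven numbers), `BadS` (digits of the true
slope at the level `rf`), and the digits of the true slope at the level `R k b` (683's event).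
-/

set_option autoImplicit false

namespace Vale.Agent.P106.U.H300

open Finset Vale.Agent.P127 Vale.Agent.P127.Stk Vale.Agent.P106.U.Cell
open Vale.Agent.P127.U.CellD (q2 rd Nb q2_pos q2_add q2_mul_pow)
open Vale.Agent.P127.U.H715 (cnt gen_shift fl1_eq_of_cnt cnt_nonneg)
open Vale.Agent.P106.U.H420 (slR BadS wo_slR)

variable {Ω τ : Type} [Fintype Ω] {ι κ κ' : Type*}

/-- one offset, arbitrary radii -/
theorem gen_rad (P : Law Ω) (S : Finset ι) (n : ι → ℕ) (z : ι → Ω → ℝ) (r : ι → ℝ)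
    (hr : ∀ x ∈ S, 0 ≤ r x) : ∃ ξ : ℝ, 0 < ξ ∧ ξ ≤ 1 ∧
      ∑ x ∈ S, prE P (fun ω => Nb (n x) (z x ω + ξ) (r x)) ≤
        ∑ x ∈ S, 2 * (2 : ℝ) ^ (n x) * r x := by
  classical
  obtain ⟨ξ, h0, h1, h2⟩ := gen_shift P S (fun x _ => n x)
    (fun x ω => z x ω - r x) (fun x _ => 2 * r x)
  refine ⟨ξ, h0, h1, ?_⟩
  have e : ∑ x ∈ S, P.ex (fun _ => (2 : ℝ) ^ (n x) * (2 * r x)) =
      ∑ x ∈ S, 2 * (2 : ℝ) ^ (n x) * r x := by
    refine Finset.sum_congr rfl fun x _ => ?_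
    unfold Law.ex
    rw [← Finset.sum_mul, P.sum_one, one_mul]
    ring
  rw [e] at h2
  refine le_trans ?_ h2
  refine Finset.sum_le_sum fun x hx => ?_
  unfold prE Law.ex
  rw [Finset.sum_filter]
  refine Finset.sum_le_sum fun ω _ => ?_
  have hη : 0 ≤ 2 * r x := by
    have := hr x hx
    positivity
  split_ifs with hE
  · obtain ⟨y, h3, h4, h5⟩ := hE
    have h6 : 1 ≤ cnt (n x) (z x ω - r x + ξ) (2 * r x) := by
      by_contra hlt
      refine h5 ?_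
      have := fl1_eq_of_cnt (y := y) _ (not_le.1 hlt) (by linarith) (by linarith)
      rw [this]
      congr 1
      ring
    nlinarith [P.nn ω]
  · exact mul_nonneg (P.nn ω) (cnt_nonneg _ _ hη)

/-- **[GEN]** with an arbitrary extra family for the offset `o 4` -/
theorem genX (P : Law Ω) (C : Pth Ω τ) (S : Finset ι) (i b : ι → ℕ) {K : ℝ} (hK : 0 ≤ K)
    (X : Finset κ) (n : κ → ℕ) (z : κ → Ω → ℝ) (r : κ → ℝ) (hr : ∀ x ∈ X, 0 ≤ r x) :
    ∃ o : Fin 7 → ℝ, (∀ k, 0 < o k ∧ o k ≤ 1) ∧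
      ∑ x ∈ S, prE P ((wo C o).Bad K (i x) (b x)) +
          ∑ x ∈ X, prE P (fun ω => Nb (n x) (z x ω + o 4) (r x)) ≤
        14 * K * S.card * q2 C.μ + ∑ x ∈ X, 2 * (2 : ℝ) ^ (n x) * r x := by
  classical
  obtain ⟨o1, p1, q1, g1⟩ := gen_one P S (fun x => C.lv (i x) (b x) 1)
    (fun x ω => C.va (i x) (b x) ω 1) hK C.μ
  obtain ⟨o4, p4, q4, g4⟩ := gen_rad P (S.disjSum X)
    (fun x => Sum.elim (fun x => C.lv (i x) (b x) 4) (fun x => n x) x)
    (fun x ω => Sum.elim (fun x => C.va (i x) (b x) ω 4) (fun x => z x ω) x)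
    (fun x => Sum.elim (fun x => K * q2 (C.lv (i x) (b x) 4 + C.μ)) (fun x => r x) x)
    (by
      intro x hx
      rcases x with x | x
      · exact mul_nonneg hK (q2_pos _).le
      · exact hr x (Finset.inr_mem_disjSum.1 hx))
  rw [Finset.sum_disjSum, Finset.sum_disjSum] at g4
  simp only [Sum.elim_inl, Sum.elim_inr] at g4
  have e4 : ∑ x ∈ S, 2 * (2 : ℝ) ^ (C.lv (i x) (b x) 4) * (K * q2 (C.lv (i x) (b x) 4 + C.μ)) =
      2 * K * S.card * q2 C.μ := by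
    have : ∀ x ∈ S, 2 * (2 : ℝ) ^ (C.lv (i x) (b x) 4) * (K * q2 (C.lv (i x) (b x) 4 + C.μ)) =
        2 * K * q2 C.μ := by
      intro x _
      rw [q2_add]
      have := q2_mul_pow (C.lv (i x) (b x) 4)
      calc 2 * (2 : ℝ) ^ (C.lv (i x) (b x) 4) * (K * (q2 (C.lv (i x) (b x) 4) * q2 C.μ)) =
          2 * K * q2 C.μ * ((2 : ℝ) ^ (C.lv (i x) (b x) 4) * q2 (C.lv (i x) (b x) 4)) := by ring
        _ = _ := by rw [this, mul_one]
    rw [Finset.sum_congr rfl this, Finset.sum_const, nsmul_eq_mul]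
    ring
  rw [e4] at g4
  set o' : Fin 7 → ℝ := fun k => if k = 1 then o1 else o4 with ho'
  have key : ∀ k : Fin 7, ∃ ξ : ℝ, (k = 1 → ξ = o1) ∧ (k = 4 → ξ = o4) ∧ 0 < ξ ∧ ξ ≤ 1 ∧
      (k ≠ 4 → ∑ x ∈ S, prE P (fun ω => Nb (C.lv (i x) (b x) k) ((wo C o').va (i x) (b x) ω k + ξ)
        (K * q2 (C.lv (i x) (b x) k + C.μ))) ≤ 2 * K * S.card * q2 C.μ) := by
    intro k
    by_cases h1 : k = 1
    · subst h1
      refine ⟨o1, fun _ => rfl, fun h => absurd h (by decide), p1, q1, fun _ => ?_⟩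
      simp only [wo_va1]
      exact g1
    by_cases h4 : k = 4
    · subst h4
      exact ⟨o4, fun h => absurd h (by decide), fun _ => rfl, p4, q4, fun h => absurd rfl h⟩
    obtain ⟨ξ, h5, h6, h7⟩ := gen_one P S (fun x => C.lv (i x) (b x) k)
      (fun x ω => (wo C o').va (i x) (b x) ω k) hK C.μ
    exact ⟨ξ, fun h => absurd h h1, fun h => absurd h h4, h5, h6, fun _ => h7⟩
  choose o e1 e4 hp hq hg using key
  refine ⟨o, fun k => ⟨hp k, hq k⟩, ?_⟩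
  have h1 : o 1 = o' 1 := by rw [e1 1 rfl, ho']; simp
  have h4 : o 4 = o' 4 := by rw [e4 4 rfl, ho']; simp
  have h4' : o 4 = o4 := e4 4 rfl
  have h : ∀ x ∈ S, prE P ((wo C o).Bad K (i x) (b x)) ≤
      ∑ k, prE P (fun ω => Nb (C.lv (i x) (b x) k) ((wo C o').va (i x) (b x) ω k + o k)
        (K * q2 (C.lv (i x) (b x) k + C.μ))) := by
    intro x _
    have := prE_exists_fin P (fun k ω => Nb ((wo C o).lv (i x) (b x) k)
      ((wo C o).va (i x) (b x) ω k + o k) (K * q2 ((wo C o).lv (i x) (b x) k + C.μ)))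
    simp only [wo_lv, wo_va C h1 h4] at this
    refine le_trans (le_of_eq ?_) this
    congr 1
    funext ω
    unfold Pth.Bad
    rw [wo_lv, wo_va C h1 h4, wo_μ]
    rfl
  have hS := Finset.sum_le_sum h
  rw [Finset.sum_comm] at hS
  have k4 : ∑ x ∈ S, prE P (fun ω => Nb (C.lv (i x) (b x) 4) ((wo C o').va (i x) (b x) ω 4 + o 4)
        (K * q2 (C.lv (i x) (b x) 4 + C.μ))) +
      ∑ x ∈ X, prE P (fun ω => Nb (n x) (z x ω + o 4) (r x)) ≤
        2 * K * S.card * q2 C.μ + ∑ x ∈ X, 2 * (2 : ℝ) ^ (n x) * r x := by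
    rw [h4']
    simp only [wo_va4]
    exact g4
  rw [← Finset.add_sum_erase Finset.univ _ (Finset.mem_univ (4 : Fin 7))] at hS
  have k5 : ∑ k ∈ Finset.univ.erase (4 : Fin 7), ∑ x ∈ S,
      prE P (fun ω => Nb (C.lv (i x) (b x) k) ((wo C o').va (i x) (b x) ω k + o k)
        (K * q2 (C.lv (i x) (b x) k + C.μ))) ≤ 6 * (2 * K * S.card * q2 C.μ) := by
    refine (Finset.sum_le_sum fun k hk => hg k (Finset.ne_of_mem_erase hk)).trans (le_of_eq ?_)
    rw [Finset.sum_const, Finset.card_erase_of_mem (Finset.mem_univ _), Finset.card_univ,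
      Fintype.card_fin, nsmul_eq_mul]
    norm_num
  nlinarith

/-- 683's event: the digits of the true slope at the level `R k b` (margin `5 μ` at the level `rf`) -/
def BadR (C : Pth Ω τ) (K : ℝ) (k b : ℕ) (ω : Ω) : Prop :=
  Nb (C.R k b) (slR C k b ω + C.o 4) (K * q2 (C.rf k + 5 * C.μ))

/-- **[GEN]** with both extra lists: `BadS` and `BadR` (the latter for pairs with `R k b ≤ rf k + 4 μ`,
that is `R k b - rf k ≤ 4 μ`, deep phi regime: `R k b = rf k` up to the margins) -/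
theorem gen3 (P : Law Ω) (C : Pth Ω τ) (S : Finset ι) (i b : ι → ℕ) (S1 : Finset κ)
    (i1 b1 : κ → ℕ) (S2 : Finset κ') (i2 b2 : κ' → ℕ) {K K1 K2 : ℝ} (hK : 0 ≤ K) (hK1 : 0 ≤ K1)
    (hK2 : 0 ≤ K2) (hR : ∀ x ∈ S2, C.R (i2 x) (b2 x) ≤ C.rf (i2 x) + 4 * C.μ) :
    ∃ o : Fin 7 → ℝ, (∀ k, 0 < o k ∧ o k ≤ 1) ∧
      ∑ x ∈ S, prE P ((wo C o).Bad K (i x) (b x)) +
          (∑ x ∈ S1, prE P (BadS (wo C o) K1 (i1 x) (b1 x)) +
            ∑ x ∈ S2, prE P (BadR (wo C o) K2 (i2 x) (b2 x))) ≤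
        14 * K * S.card * q2 C.μ + (2 * K1 * S1.card * q2 C.μ + 2 * K2 * S2.card * q2 C.μ) := by
  classical
  obtain ⟨o, h1, h2⟩ := genX P C S i b hK (S1.disjSum S2)
    (fun x => Sum.elim (fun x => C.rf (i1 x)) (fun x => C.R (i2 x) (b2 x)) x)
    (fun x ω => Sum.elim (fun x => slR C (i1 x) (b1 x) ω) (fun x => slR C (i2 x) (b2 x) ω) x)
    (fun x => Sum.elim (fun x => K1 * q2 (C.rf (i1 x) + C.μ))
      (fun x => K2 * q2 (C.rf (i2 x) + 5 * C.μ)) x)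
    (by
      intro x _
      rcases x with x | x
      · exact mul_nonneg hK1 (q2_pos _).le
      · exact mul_nonneg hK2 (q2_pos _).le)
  refine ⟨o, h1, ?_⟩
  rw [Finset.sum_disjSum, Finset.sum_disjSum] at h2
  simp only [Sum.elim_inl, Sum.elim_inr] at h2
  have e1 : ∀ x, BadS (wo C o) K1 (i1 x) (b1 x) = fun ω =>
      Nb (C.rf (i1 x)) (slR C (i1 x) (b1 x) ω + o 4) (K1 * q2 (C.rf (i1 x) + C.μ)) := by
    intro x
    funext ω
    unfold BadS
    rw [wo_slR]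
    rfl
  have e2 : ∀ x, BadR (wo C o) K2 (i2 x) (b2 x) = fun ω =>
      Nb (C.R (i2 x) (b2 x)) (slR C (i2 x) (b2 x) ω + o 4) (K2 * q2 (C.rf (i2 x) + 5 * C.μ)) := by
    intro x
    funext ω
    unfold BadR
    rw [wo_slR, wo_R]
    rfl
  simp only [e1, e2]
  refine h2.trans ?_
  have f1 : ∑ x ∈ S1, 2 * (2 : ℝ) ^ (C.rf (i1 x)) * (K1 * q2 (C.rf (i1 x) + C.μ)) ≤
      2 * K1 * S1.card * q2 C.μ := by
    have : ∀ x ∈ S1, 2 * (2 : ℝ) ^ (C.rf (i1 x)) * (K1 * q2 (C.rf (i1 x) + C.μ)) ≤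
        2 * K1 * q2 C.μ := by
      intro x _
      rw [q2_add]
      have := q2_mul_pow (C.rf (i1 x))
      refine le_of_eq ?_
      calc 2 * (2 : ℝ) ^ (C.rf (i1 x)) * (K1 * (q2 (C.rf (i1 x)) * q2 C.μ)) =
          2 * K1 * q2 C.μ * ((2 : ℝ) ^ (C.rf (i1 x)) * q2 (C.rf (i1 x))) := by ring
        _ = _ := by rw [this, mul_one]
    refine (Finset.sum_le_sum this).trans (le_of_eq ?_)
    rw [Finset.sum_const, nsmul_eq_mul]
    ring
  have f2 : ∑ x ∈ S2, 2 * (2 : ℝ) ^ (C.R (i2 x) (b2 x)) * (K2 * q2 (C.rf (i2 x) + 5 * C.μ)) ≤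
      2 * K2 * S2.card * q2 C.μ := by
    have : ∀ x ∈ S2, 2 * (2 : ℝ) ^ (C.R (i2 x) (b2 x)) * (K2 * q2 (C.rf (i2 x) + 5 * C.μ)) ≤
        2 * K2 * q2 C.μ := by
      intro x hx
      have e : C.rf (i2 x) + 5 * C.μ = (C.rf (i2 x) + 4 * C.μ) + C.μ := by ring
      rw [e, q2_add]
      have h3 := q2_mul_pow (C.rf (i2 x) + 4 * C.μ)
      have h4 : (2 : ℝ) ^ (C.R (i2 x) (b2 x)) ≤ (2 : ℝ) ^ (C.rf (i2 x) + 4 * C.μ) :=
        pow_le_pow_right₀ (by norm_num) (hR x hx)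
      have h5 := q2_pos (C.rf (i2 x) + 4 * C.μ)
      have h6 := q2_pos C.μ
      calc 2 * (2 : ℝ) ^ (C.R (i2 x) (b2 x)) * (K2 * (q2 (C.rf (i2 x) + 4 * C.μ) * q2 C.μ)) =
          2 * K2 * q2 C.μ * ((2 : ℝ) ^ (C.R (i2 x) (b2 x)) * q2 (C.rf (i2 x) + 4 * C.μ)) := by ring
        _ ≤ 2 * K2 * q2 C.μ *
            ((2 : ℝ) ^ (C.rf (i2 x) + 4 * C.μ) * q2 (C.rf (i2 x) + 4 * C.μ)) := by gcongr
        _ = _ := by rw [h3, mul_one]
    refine (Finset.sum_le_sum this).trans (le_of_eq ?_)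
    rw [Finset.sum_const, nsmul_eq_mul]
    ring
  linarith

end Vale.Agent.P106.U.H300
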