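import Vale.Agent.P106.U.CellN
import Vale.Agent.P106.U.H364.Nhc

/-!
# P106 / U / H300 : [N2], the cells are nested up to a bounded number of choices (helper300)

* `clo_of_cell` : the same cell `(j, b)` and the same slope digits of `(i, b)`, `i ≤ j`: the numbers of the cell
  `(i, b)` are close.
* `n2` : `H(cell i b | cell j b) ≤ 9 log (2 ⌈150 K^7⌉ + 3)` for `i ≤ j`.
-/

set_option autoImplicit false

namespace Vale.Agent.P106.U.H300

open Finset Vale.Agent.P127 Vale.Agent.P127.Stk Vale.Agent.P106.U.Cell Vale.Agent.P106.U.Cell.Pth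
open Vale.Agent.P127.U.CellD (q2 rd Nb q2_pos q2_add q2_mul_pow q2_le rd_err)

variable {Ω τ : Type} {C : Pth Ω τ} {i j b : ℕ} {ω ω' : Ω} {K : ℝ}

lemma R_mono (C : Pth Ω τ) (h : i ≤ j) (b : ℕ) : C.R i b ≤ C.R j b := by
  have h1 := C.hk h
  have h2 := C.hf h
  rw [R_eq, R_eq]
  omega

lemma Lev_mono (C : Pth Ω τ) (h : i ≤ j) (hl : C.Lev i b) : C.Lev j b :=
  ⟨hl.1, hl.2.trans (R_mono C h b)⟩

/-- **closeness of the numbers of the coarser step** -/
theorem va_clo (h1 : 1 ≤ K) (hK : C.Ok K ω) (hij : i ≤ j) (hli : C.Lev i b)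
    (h : C.cell j b ω = C.cell j b ω')
    (hs : fl1 (C.R i b - 3 * C.μ) (C.sl i b ω + C.o 4) =
      fl1 (C.R i b - 3 * C.μ) (C.sl i b ω' + C.o 4)) (k : Fin 7) :
    |C.va i b ω' k - C.va i b ω k| ≤ 150 * K ^ 7 * q2 (C.lv i b k) := by
  have hlj := Lev_mono C hij hli
  have hN := core h1 hK hij hli hlj h
  have hc := cell_iff.1 h
  have hT : C.T i ω = C.T i ω' := T_mono hij hc.1
  have hv : fl1 b (C.l ω).v = fl1 b (C.l ω').v := hc.2.1
  have hw : fl1 (b - C.μ) ((C.l ω).w + C.o 1) = fl1 (b - C.μ) ((C.l ω').w + C.o 1) := hc.2.2 1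
  have hsi : C.s i ω' = C.s i ω := s_eq hT
  have hFr : C.Fr i b (C.R i b - 3 * C.μ) ω' = C.Fr i b (C.R i b - 3 * C.μ) ω := Fr_eq hT hv hs
  have hph := Fr_ph (C := C) i b (C.R i b - 3 * C.μ) ω
  have hij' := C.ha hij
  have hR := R_mono C hij b
  obtain ⟨hb, hRi⟩ := hli
  have K2 : 1 ≤ K ^ 2 := one_le_pow₀ h1
  have K4 : K ^ 2 ≤ K ^ 4 := pow_le_pow_right₀ h1 (by norm_num)
  have K7 : K ^ 4 ≤ K ^ 7 := pow_le_pow_right₀ h1 (by norm_num)
  have K1 : 1 ≤ K ^ 7 := one_le_pow₀ h1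
  fin_cases k
  · show |C.va i b ω' 0 - C.va i b ω 0| ≤ 150 * K ^ 7 * q2 (C.lv i b 0)
    rw [va0, va0, lv0, hsi]
    have e1 : q2 (C.a j + b - C.μ) ≤ q2 (C.a i + b - C.μ) := q2_le (by omega)
    have e2 : q2 (C.a i + b) ≤ q2 (C.a i + b - C.μ) := q2_le (by omega)
    have q0 := q2_pos (C.a i + b - C.μ)
    have := hN.X
    nlinarith
  · show |C.va i b ω' 1 - C.va i b ω 1| ≤ 150 * K ^ 7 * q2 (C.lv i b 1)
    rw [va1, va1, lv1]
    have e1 : q2 (b + 2 * C.μ) ≤ q2 (b - C.μ) := q2_le (by omega)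
    have q0 := q2_pos (b - C.μ)
    refine hN.w.trans ?_
    calc 10 * K ^ 2 * q2 (b + 2 * C.μ) ≤ 10 * K ^ 2 * q2 (b - C.μ) :=
          mul_le_mul_of_nonneg_left e1 (by positivity)
      _ ≤ 150 * K ^ 7 * q2 (b - C.μ) := mul_le_mul_of_nonneg_right (by nlinarith) q0.le
  · show |C.va i b ω' 2 - C.va i b ω 2| ≤ 150 * K ^ 7 * q2 (C.lv i b 2)
    rw [va2, va2, lv2, hsi]
    have e1 : q2 (C.a j + b - C.μ) ≤ q2 (C.a i + b - C.μ) := q2_le (by omega)
    have e2 : q2 (C.a i + b) ≤ q2 (C.a i + b - C.μ) := q2_le (by omega)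
    have q0 := q2_pos (C.a i + b - C.μ)
    refine hN.N.trans ?_
    have e3 := mul_le_mul_of_nonneg_left e2 (show (0 : ℝ) ≤ 10 * K ^ 2 by positivity)
    calc q2 (C.a j + b - C.μ) + 10 * K ^ 2 * q2 (C.a i + b) ≤
          (1 + 10 * K ^ 2) * q2 (C.a i + b - C.μ) := by linarith
      _ ≤ 150 * K ^ 7 * q2 (C.a i + b - C.μ) := mul_le_mul_of_nonneg_right (by nlinarith) q0.le
  · show |C.va i b ω' 3 - C.va i b ω 3| ≤ 150 * K ^ 7 * q2 (C.lv i b 3)
    rw [va3, va3, lv3, hsi, Zs_sub hv hw]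
    set Q := q2 (C.a i + 2 * b - 3 * C.μ) with hQ
    have q0 : 0 < Q := q2_pos _
    have z1 : 3 * q2 (C.a j + 2 * b - 3 * C.μ) + 51 * K ^ 4 * q2 (C.a i + 2 * b) ≤
        3 * Q + 51 * K ^ 4 * Q := by
      have e1 : q2 (C.a j + 2 * b - 3 * C.μ) ≤ Q := q2_le (by omega)
      have e2 : q2 (C.a i + 2 * b) ≤ Q := q2_le (by omega)
      have e3 := mul_le_mul_of_nonneg_left e2 (show (0 : ℝ) ≤ 51 * K ^ 4 by positivity)
      linarith
    have z2 : |((C.l ω).v - rd b (C.l ω).v) * ((C.l ω').X (C.s i ω) - (C.l ω).X (C.s i ω))| ≤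
        2 * Q := by
      rw [abs_mul]
      have a1 : |(C.l ω).v - rd b (C.l ω).v| ≤ q2 b := by
        rw [abs_sub_comm]; exact rd_err b _
      refine (mul_le_mul a1 hN.X (abs_nonneg _) (q2_pos b).le).trans ?_
      have e1 : q2 b * q2 (C.a j + b - C.μ) ≤ Q := by rw [← q2_add]; exact q2_le (by omega)
      have e2 : q2 b * q2 (C.a i + b) ≤ Q := by rw [← q2_add]; exact q2_le (by omega)
      linarith
    have z3 : |((C.l ω).w - C.ro 1 (b - C.μ) (C.l ω).w) *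
        ((C.l ω').N (C.s i ω) - (C.l ω).N (C.s i ω))| ≤ (1 + 10 * K ^ 2) * Q := by
      rw [abs_mul]
      refine (mul_le_mul (C.ro_err 1 _ _) hN.N (abs_nonneg _) (q2_pos (b - C.μ)).le).trans ?_
      have e1 : q2 (b - C.μ) * q2 (C.a j + b - C.μ) ≤ Q := by
        rw [← q2_add]; exact q2_le (by omega)
      have e2 : q2 (b - C.μ) * q2 (C.a i + b) ≤ Q := by rw [← q2_add]; exact q2_le (by omega)
      have e3 := mul_le_mul_of_nonneg_left e2 (show (0 : ℝ) ≤ 10 * K ^ 2 by positivity)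
      calc q2 (b - C.μ) * (q2 (C.a j + b - C.μ) + 10 * K ^ 2 * q2 (C.a i + b)) =
            q2 (b - C.μ) * q2 (C.a j + b - C.μ) + 10 * K ^ 2 * (q2 (b - C.μ) * q2 (C.a i + b)) := by
            ring
        _ ≤ _ := by linarith
    have z0 := hN.z
    refine ((abs_add_le _ _).trans (add_le_add ((abs_add_le _ _).trans (add_le_add z0 z2))
      z3)).trans ?_
    calc _ ≤ 3 * Q + 51 * K ^ 4 * Q + 2 * Q + (1 + 10 * K ^ 2) * Q := by linarith
      _ = (6 + 51 * K ^ 4 + 10 * K ^ 2) * Q := by ring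
      _ ≤ 150 * K ^ 7 * Q := mul_le_mul_of_nonneg_right (by nlinarith) q0.le
  · show |C.va i b ω' 4 - C.va i b ω 4| ≤ 150 * K ^ 7 * q2 (C.lv i b 4)
    rw [va4, va4, lv4]
    have := near_of_fl hs
    rw [add_sub_add_right_eq_sub] at this
    have q0 := q2_pos (C.R i b - 3 * C.μ)
    nlinarith
  · show |C.va i b ω' 5 - C.va i b ω 5| ≤ 150 * K ^ 7 * q2 (C.lv i b 5)
    rw [va5, va5, lv5, hsi, hFr]
    set G := C.Fr i b (C.R i b - 3 * C.μ) ω with hG
    have gd1 : ∀ l : Ray, G.gd l (C.s i ω) = (C.F i ω).gd l (C.s i ω) +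
        ((C.F i ω).ph - G.ph) * l.v := fun l => Fu.gd_ph (C.F i ω) G.ph l (C.s i ω)
    rw [gd1, gd1]
    set Q := q2 (C.R i b + b - 5 * C.μ) with hQ
    have q0 : 0 < Q := q2_pos _
    have z1 : |((C.F i ω).ph - G.ph) * ((C.l ω').v - (C.l ω).v)| ≤ Q := by
      rw [abs_mul]
      refine (mul_le_mul hph hN.v (abs_nonneg _) (q2_pos _).le).trans ?_
      rw [← q2_add]
      exact q2_le (by omega)
    have e1 : q2 (C.R j b + b - 5 * C.μ) ≤ Q := q2_le (by omega)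
    have e2 : q2 (C.R i b + b - 3 * C.μ) ≤ Q := q2_le (by omega)
    have e1' := mul_le_mul_of_nonneg_left e1 (show (0 : ℝ) ≤ 2 * K ^ 2 by positivity)
    have e2' := mul_le_mul_of_nonneg_left e2 (show (0 : ℝ) ≤ 131 * K ^ 7 by positivity)
    have z0 := hN.c
    have e : (C.F i ω).gd (C.l ω') (C.s i ω) + ((C.F i ω).ph - G.ph) * (C.l ω').v -
        ((C.F i ω).gd (C.l ω) (C.s i ω) + ((C.F i ω).ph - G.ph) * (C.l ω).v) =
        ((C.F i ω).gd (C.l ω') (C.s i ω) - (C.F i ω).gd (C.l ω) (C.s i ω)) +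
          ((C.F i ω).ph - G.ph) * ((C.l ω').v - (C.l ω).v) := by ring
    rw [e]
    refine ((abs_add_le _ _).trans (add_le_add z0 z1)).trans ?_
    calc _ ≤ 2 * K ^ 2 * Q + 131 * K ^ 7 * Q + Q := by linarith
      _ = (2 * K ^ 2 + 131 * K ^ 7 + 1) * Q := by ring
      _ ≤ 150 * K ^ 7 * Q := mul_le_mul_of_nonneg_right (by nlinarith) q0.le
  · show |C.va i b ω' 6 - C.va i b ω 6| ≤ 150 * K ^ 7 * q2 (C.lv i b 6)
    rw [va6, va6, lv6, hsi, hFr]
    set G := C.Fr i b (C.R i b - 3 * C.μ) ω with hG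
    have g1 : ∀ l : Ray, G.g l (C.s i ω) = (C.F i ω).g l (C.s i ω) +
        ((C.F i ω).ph - G.ph) * l.X (C.s i ω) := fun l => Fu.g_ph (C.F i ω) G.ph l (C.s i ω)
    rw [g1, g1]
    set Q := q2 (C.a i + b + C.R i b - 7 * C.μ) with hQ
    have q0 : 0 < Q := q2_pos _
    have z1 : |((C.F i ω).ph - G.ph) * ((C.l ω').X (C.s i ω) - (C.l ω).X (C.s i ω))| ≤ 2 * Q := by
      rw [abs_mul]
      refine (mul_le_mul hph hN.X (abs_nonneg _) (q2_pos _).le).trans ?_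
      have e1 : q2 (C.R i b - 3 * C.μ) * q2 (C.a j + b - C.μ) ≤ Q := by
        rw [← q2_add]; exact q2_le (by omega)
      have e2 : q2 (C.R i b - 3 * C.μ) * q2 (C.a i + b) ≤ Q := by
        rw [← q2_add]; exact q2_le (by omega)
      linarith
    have e1 : q2 (C.a j + b + C.R j b - 7 * C.μ) ≤ Q := q2_le (by omega)
    have e2 : q2 (C.a i + C.R j b + b - 5 * C.μ) ≤ Q := q2_le (by omega)
    have e3 : q2 (C.a i + b + C.R i b - 3 * C.μ) ≤ Q := q2_le (by omega)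
    have e1' := mul_le_mul_of_nonneg_left e1 (show (0 : ℝ) ≤ 2 * K ^ 2 by positivity)
    have e2' := mul_le_mul_of_nonneg_left e2 (show (0 : ℝ) ≤ 2 * K ^ 2 by positivity)
    have e3' := mul_le_mul_of_nonneg_left e3 (show (0 : ℝ) ≤ 140 * K ^ 7 by positivity)
    have z0 := hN.g
    have e : (C.F i ω).g (C.l ω') (C.s i ω) + ((C.F i ω).ph - G.ph) * (C.l ω').X (C.s i ω) -
        ((C.F i ω).g (C.l ω) (C.s i ω) + ((C.F i ω).ph - G.ph) * (C.l ω).X (C.s i ω)) =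
        ((C.F i ω).g (C.l ω') (C.s i ω) - (C.F i ω).g (C.l ω) (C.s i ω)) +
          ((C.F i ω).ph - G.ph) * ((C.l ω').X (C.s i ω) - (C.l ω).X (C.s i ω)) := by ring
    rw [e]
    refine ((abs_add_le _ _).trans (add_le_add z0 z1)).trans ?_
    calc _ ≤ 2 * K ^ 2 * Q + 2 * K ^ 2 * Q + 140 * K ^ 7 * Q + 2 * Q := by linarith
      _ = (4 * K ^ 2 + 140 * K ^ 7 + 2) * Q := by ring
      _ ≤ 150 * K ^ 7 * Q := mul_le_mul_of_nonneg_right (by nlinarith) q0.le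

/-- the slope of the coarser step -/
theorem sl_clo (h1 : 1 ≤ K) (hK : C.Ok K ω) (hK' : C.Ok K ω') (hij : i ≤ j) (hli : C.Lev i b)
    (h : C.cell j b ω = C.cell j b ω') :
    |C.sl i b ω' - C.sl i b ω| ≤ 150 * K ^ 7 * q2 (C.R i b - 3 * C.μ) := by
  have hlj := Lev_mono C hij hli
  have hc := cell_iff.1 h
  have hT : C.T i ω = C.T i ω' := T_mono hij hc.1
  have hv : fl1 b (C.l ω).v = fl1 b (C.l ω').v := hc.2.1
  rw [sl_sub hT hv]
  have hR := R_mono C hij b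
  have K2 : 1 ≤ K ^ 2 := one_le_pow₀ h1
  have K5 : K ^ 2 ≤ K ^ 5 := pow_le_pow_right₀ h1 (by norm_num)
  have K7 : K ^ 5 ≤ K ^ 7 := pow_le_pow_right₀ h1 (by norm_num)
  have q0 := q2_pos (C.R i b - 3 * C.μ)
  have e1 : q2 (C.R j b - 3 * C.μ) ≤ q2 (C.R i b - 3 * C.μ) := q2_le (by omega)
  have e2 : q2 (C.R i b - C.μ) ≤ q2 (C.R i b - 3 * C.μ) := q2_le (by omega)
  have e1' := mul_le_mul_of_nonneg_left e1 (show (0 : ℝ) ≤ 2 * K ^ 2 by positivity)
  have e2' := mul_le_mul_of_nonneg_left e2 (show (0 : ℝ) ≤ 50 * K ^ 5 by positivity)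
  refine (core_ph h1 hK hK' hij hli hlj h).trans ?_
  calc _ ≤ (2 * K ^ 2 + 50 * K ^ 5) * q2 (C.R i b - 3 * C.μ) := by linarith
    _ ≤ 150 * K ^ 7 * q2 (C.R i b - 3 * C.μ) := mul_le_mul_of_nonneg_right (by nlinarith) q0.le

/-- the constant -/
noncomputable def MK (K : ℝ) : ℕ := ⌈150 * K ^ 7⌉₊

lemma le_MK (K : ℝ) : 150 * K ^ 7 ≤ MK K := Nat.le_ceil _

theorem clo_of_cell (h1 : 1 ≤ K) (hK : C.Ok K ω) (hij : i ≤ j) (hli : C.Lev i b)
    (h : C.cell j b ω = C.cell j b ω')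
    (hs : fl1 (C.R i b - 3 * C.μ) (C.sl i b ω + C.o 4) =
      fl1 (C.R i b - 3 * C.μ) (C.sl i b ω' + C.o 4)) : H364.Clo C (MK K) i b ω ω' where
  T := T_mono hij (cell_iff.1 h).1
  v := by
    have h2 := near_of_fl (cell_iff.1 h).2.1
    rw [abs_sub_comm] at h2
    have h3 := le_MK K
    have K1 : 1 ≤ K ^ 7 := one_le_pow₀ h1
    have := q2_pos b
    nlinarith
  va := fun k => by
    have h2 := va_clo h1 hK hij hli h hs k
    rw [abs_sub_comm] at h2
    exact h2.trans (mul_le_mul_of_nonneg_right (le_MK K) (q2_pos _).le)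

variable [Fintype Ω]

/-- the slope digits of the coarser step take few values -/
theorem hc_sl (P : Law Ω) (C : Pth Ω τ) (h1 : 1 ≤ K) (hK : ∀ ω, 0 < P.w ω → C.Ok K ω)
    (hij : i ≤ j) (hli : C.Lev i b) :
    hc P (fun ω => fl1 (C.R i b - 3 * C.μ) (C.sl i b ω + C.o 4)) (C.cell j b) ≤
      Real.log (2 * MK K + 3) := by
  classical
  have e := hc_le_log P (fun ω => fl1 (C.R i b - 3 * C.μ) (C.sl i b ω + C.o 4)) (C.cell j b)
    (2 * MK K + 3) (fun ω hω => by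
      set z := fl1 (C.R i b - 3 * C.μ) (C.sl i b ω + C.o 4) with hz
      refine ⟨Finset.Icc (z - (MK K + 1)) (z + (MK K + 1)), ?_, fun ω' hω' e => ?_⟩
      · rw [Int.card_Icc]
        have : z + ((MK K : ℤ) + 1) + 1 - (z - (MK K + 1)) = ((2 * MK K + 3 : ℕ) : ℤ) := by
          push_cast; ring
        rw [this, Int.toNat_natCast]
      · have h2 := sl_clo h1 (hK ω hω) (hK ω' hω') hij hli e.symm
        have h3 : |(C.sl i b ω' + C.o 4) - (C.sl i b ω + C.o 4)| ≤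
            (MK K : ℕ) * q2 (C.R i b - 3 * C.μ) := by
          rw [add_sub_add_right_eq_sub]
          exact h2.trans (mul_le_mul_of_nonneg_right (le_MK K) (q2_pos _).le)
        have h4 := H364.fl1_le_of_near h3
        rw [← hz] at h4
        rw [Finset.mem_Icc]
        have := abs_le.1 h4
        constructor <;> linarith)
  push_cast at e
  exact e

/-- **[N2]** the cells are nested up to a bounded number of choices -/
theorem n2 (P : Law Ω) (C : Pth Ω τ) (h1 : 1 ≤ K) (hK : ∀ ω, 0 < P.w ω → C.Ok K ω)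
    (hij : i ≤ j) (hli : C.Lev i b) :
    hc P (C.cell i b) (C.cell j b) ≤ 9 * Real.log (2 * MK K + 3) := by
  set S : Ω → ℤ := fun ω => fl1 (C.R i b - 3 * C.μ) (C.sl i b ω + C.o 4) with hS
  have e1 := hc_sl P C h1 hK hij hli
  have e2 := H364.cell_le P C (fun ω => (S ω, C.cell j b ω)) (M := MK K) (i := i) (b := b)
    (fun ω ω' p _ e => clo_of_cell h1 (hK ω p) hij hli (congrArg Prod.snd e) (congrArg Prod.fst e))
  have e3 := hc_pair P S (C.cell i b) (C.cell j b)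
  have e4 : hc P (C.cell i b) (C.cell j b) ≤ hc P (fun ω => (S ω, C.cell i b ω)) (C.cell j b) :=
    hc_mono_left P fun ω ω' _ _ e => congrArg Prod.snd (congrArg Prod.fst e)
  have e1' : hc P S (C.cell j b) ≤ Real.log (2 * MK K + 3) := e1
  linarith

end Vale.Agent.P106.U.H300
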