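import Vale.Agent.P106.U.H300.Gen
import Vale.Agent.P127.U.Mic.Colp

/-!
# P106 / U / H300 : [YC], the velocity block is nonatomic given the cell (helper300)

* `colp_bad` : the condition `D` is a function of `Z` outside of the event `B`.
* `colp_extra` : a letter `E` with at most `N` values given `Z` is added to the condition.
* `yc`, `yc_sum` : `colp (fl1 (b + g) v | cell k b) ≤ 2 colp (y-block | F b) + 3 P(Bad)`, summed over pairs `(k, b)`
  with the generic offsets of `gen`.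
* `yc2`, `yc2_sum` : the same for the cell together with a letter which takes few values given `F b`.
-/

set_option autoImplicit false

namespace Vale.Agent.P106.U.H300

open Finset Vale.Agent.P127 Vale.Agent.P127.Stk Vale.Agent.P106.U.Cell Vale.Agent.P127.U.Mic
open Vale.Agent.P127.U.CellD (q2 rd Nb q2_pos q2_add q2_mul_pow)

section raw

variable {Ω : Type} [Fintype Ω] {S T U V : Type*}

lemma ex_ind_eq (P : Law Ω) (B : Ω → Prop) : P.ex (fun ω => Law.ind (B ω)) = prE P B := by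
  classical
  unfold Law.ex prE Law.ind
  rw [Finset.sum_filter]
  refine Finset.sum_congr rfl fun ω _ => ?_
  by_cases h : B ω <;> simp [h]

lemma law_nonempty (P : Law Ω) : Nonempty Ω := by
  by_contra h
  rw [not_nonempty_iff] at h
  have := P.sum_one
  simp at this

/-- **the condition is a function of `Z` outside of `B`** -/
theorem colp_bad (P : Law Ω) (X : Ω → S) (D : Ω → U) (Z : Ω → T) (B : Ω → Prop)
    (h : ∀ ω ω', 0 < P.w ω → 0 < P.w ω' → ¬ B ω → ¬ B ω' → Z ω = Z ω' → D ω = D ω') :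
    colp P X D ≤ 2 * colp P X Z + 3 * prE P B := by
  classical
  obtain ⟨ω₀⟩ := law_nonempty P
  let F : T → U := fun z => if h : ∃ ω, 0 < P.w ω ∧ ¬ B ω ∧ Z ω = z then D h.choose else D ω₀
  refine colp_off_fn P X D Z F _ ?_
  rw [← ex_ind_eq]
  refine P.ex_mono fun ω hω => ?_
  by_cases hB : B ω
  · rw [Law.ind_of hB]
    by_cases h2 : D ω ≠ F (Z ω)
    · rw [Law.ind_of h2]
    · rw [Law.ind_not h2]; norm_num
  · have h2 : ¬ (D ω ≠ F (Z ω)) := by
      push Not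
      have hex : ∃ ω', 0 < P.w ω' ∧ ¬ B ω' ∧ Z ω' = Z ω := ⟨ω, hω, hB, rfl⟩
      show D ω = if h : ∃ ω', 0 < P.w ω' ∧ ¬ B ω' ∧ Z ω' = Z ω then D h.choose else D ω₀
      rw [dif_pos hex]
      exact h ω _ hω hex.choose_spec.1 hB hex.choose_spec.2.1 hex.choose_spec.2.2.symm
    rw [Law.ind_not h2, Law.ind_not hB]

/-- small conditional probabilities are rare -/
theorem prob_small (P : Law Ω) (E : Ω → V) (Z : Ω → T) (N : ℕ) (hE : ∀ ω, 0 < P.w ω →
      ∃ F : Finset V, F.card ≤ N ∧ ∀ ω', 0 < P.w ω' → Z ω' = Z ω → E ω' ∈ F) {η : ℝ} (hη : 0 ≤ η) :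
    P.ex (fun ω => Law.ind (cq P E Z (E ω) (Z ω) < η)) ≤ N * η := by
  classical
  have h1 := ex_own P E Z (fun e ω => Law.ind (cq P E Z e (Z ω) < η)) fun x ω ω' _ _ e => by
    rw [e]
  rw [h1]
  have h2 : ∑ x ∈ img E, P.ex (fun ω => cq P E Z x (Z ω) * Law.ind (cq P E Z x (Z ω) < η)) =
      P.ex (fun ω => ∑ x ∈ img E, cq P E Z x (Z ω) * Law.ind (cq P E Z x (Z ω) < η)) := by
    unfold Law.ex
    rw [Finset.sum_comm]
    exact Finset.sum_congr rfl fun ω _ => by rw [Finset.mul_sum]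
  rw [h2, ← P.ex_const (N * η)]
  refine P.ex_mono fun ω hω => ?_
  obtain ⟨F, hF, hmem⟩ := hE ω hω
  have h3 : ∀ x ∉ F, cq P E Z x (Z ω) = 0 := by
    intro x hx
    unfold cq
    have : P.pr (fun ω => (E ω, Z ω)) (x, Z ω) = 0 := by
      unfold Law.pr
      refine Finset.sum_eq_zero fun ω' hω' => ?_
      have h4 : (E ω', Z ω') = (x, Z ω) := by simpa using hω'
      rcases (P.nn ω').eq_or_lt with h0 | h0
      · exact h0.symm
      · exact absurd ((Prod.mk.inj h4).1 ▸ hmem ω' h0 (Prod.mk.inj h4).2) hx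
    rw [this, zero_div]
  calc ∑ x ∈ img E, cq P E Z x (Z ω) * Law.ind (cq P E Z x (Z ω) < η) ≤
        ∑ x ∈ F, cq P E Z x (Z ω) * Law.ind (cq P E Z x (Z ω) < η) := by
        have e1 : ∑ x ∈ img E, cq P E Z x (Z ω) * Law.ind (cq P E Z x (Z ω) < η) =
            ∑ x ∈ img E ∩ F, cq P E Z x (Z ω) * Law.ind (cq P E Z x (Z ω) < η) := by
          symm
          refine Finset.sum_subset Finset.inter_subset_left fun x hx hx' => ?_
          rw [h3 x (fun hF' => hx' (Finset.mem_inter.2 ⟨hx, hF'⟩)), zero_mul]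
        rw [e1]
        refine Finset.sum_le_sum_of_subset_of_nonneg Finset.inter_subset_right fun x _ _ => ?_
        exact mul_nonneg (cq_nonneg P E Z _ _) (ind_nonneg _)
    _ ≤ ∑ x ∈ F, η := by
        refine Finset.sum_le_sum fun x _ => ?_
        by_cases h : cq P E Z x (Z ω) < η
        · rw [Law.ind_of h, mul_one]; exact h.le
        · rw [Law.ind_not h, mul_zero]; exact hη
    _ = F.card * η := by rw [Finset.sum_const, nsmul_eq_mul]
    _ ≤ N * η := mul_le_mul_of_nonneg_right (by exact_mod_cast hF) hη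

/-- **a letter with few values is added to the condition** -/
theorem colp_extra (P : Law Ω) (X : Ω → S) (E : Ω → V) (Z : Ω → T) (N : ℕ) (hE : ∀ ω, 0 < P.w ω →
      ∃ F : Finset V, F.card ≤ N ∧ ∀ ω', 0 < P.w ω' → Z ω' = Z ω → E ω' ∈ F) {η : ℝ} (hη : 0 < η) :
    colp P X (fun ω => (E ω, Z ω)) ≤ colp P X Z / η + N * η := by
  have h1 := prob_small P E Z N hE hη.le
  have h2 : colp P X (fun ω => (E ω, Z ω)) ≤
      P.ex (fun ω => 1 / η * cq P X Z (X ω) (Z ω) + Law.ind (cq P E Z (E ω) (Z ω) < η)) := by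
    refine P.ex_mono fun ω hω => ?_
    have hc := cq_nonneg P X Z (X ω) (Z ω)
    by_cases h : cq P E Z (E ω) (Z ω) < η
    · rw [Law.ind_of h]
      have := cq_le_one P X (fun ω => (E ω, Z ω)) (X ω) (E ω, Z ω)
      have h3 : 0 ≤ 1 / η * cq P X Z (X ω) (Z ω) := by positivity
      linarith
    · rw [Law.ind_not h, add_zero]
      push Not at h
      have hz := P.pr_pos Z hω
      have he : 0 < P.pr (fun ω => (E ω, Z ω)) (E ω, Z ω) := P.pr_pos (fun ω => (E ω, Z ω)) hω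
      unfold cq at h ⊢
      rw [le_div_iff₀ hz] at h
      have h4 : P.pr (fun ω => (X ω, (E ω, Z ω))) (X ω, (E ω, Z ω)) ≤
          P.pr (fun ω => (X ω, Z ω)) (X ω, Z ω) :=
        U.Pin.pr_le_pr P fun ω' h' => by
          simp only [Prod.mk.injEq] at h' ⊢
          exact ⟨h'.1, h'.2.2⟩
      rw [div_le_iff₀ he]
      have h5 := P.pr_nonneg (fun ω => (X ω, Z ω)) (X ω, Z ω)
      calc P.pr (fun ω => (X ω, (E ω, Z ω))) (X ω, (E ω, Z ω)) ≤
            P.pr (fun ω => (X ω, Z ω)) (X ω, Z ω) := h4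
        _ = 1 / η * (P.pr (fun ω => (X ω, Z ω)) (X ω, Z ω) / P.pr Z (Z ω)) *
            (η * P.pr Z (Z ω)) := by field_simp
        _ ≤ _ := mul_le_mul_of_nonneg_left h (by positivity)
  refine h2.trans ?_
  rw [P.ex_add, P.ex_const_mul]
  have : 1 / η * P.ex (fun ω => cq P X Z (X ω) (Z ω)) = colp P X Z / η := by
    unfold colp; ring
  linarith

/-- the same with the best `η` -/
theorem colp_extra' (P : Law Ω) (X : Ω → S) (E : Ω → V) (Z : Ω → T) (N : ℕ) (hE : ∀ ω, 0 < P.w ω →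
      ∃ F : Finset V, F.card ≤ N ∧ ∀ ω', 0 < P.w ω' → Z ω' = Z ω → E ω' ∈ F) {c : ℝ} (hN : 1 ≤ N)
    (hc : colp P X Z ≤ c) :
    colp P X (fun ω => (E ω, Z ω)) ≤ 2 * Real.sqrt (N * c) := by
  have hN0 : (1 : ℝ) ≤ N := by exact_mod_cast hN
  have c0 : 0 ≤ c := (colp_nonneg P X Z).trans hc
  rcases c0.eq_or_lt with h0 | h0
  · rw [← h0, mul_zero, Real.sqrt_zero, mul_zero]
    by_contra hcon
    push Not at hcon
    set d := colp P X (fun ω => (E ω, Z ω)) with hd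
    have h1 := colp_extra P X E Z N hE (η := d / (2 * N)) (by positivity)
    have h2 : colp P X Z = 0 := le_antisymm (by rw [← h0] at hc; exact hc) (colp_nonneg P X Z)
    rw [h2, zero_div, zero_add, ← hd] at h1
    have h3 : (N : ℝ) * (d / (2 * N)) = d / 2 := by field_simp
    rw [h3] at h1
    linarith
  · have hη : 0 < Real.sqrt (c / N) := Real.sqrt_pos.2 (by positivity)
    have h1 := colp_extra P X E Z N hE hη
    have h2 : colp P X Z / Real.sqrt (c / N) ≤ Real.sqrt (N * c) := by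
      rw [div_le_iff₀ hη, ← Real.sqrt_mul (by positivity)]
      have : N * c * (c / N) = c ^ 2 := by field_simp
      rw [this, Real.sqrt_sq c0]
      exact hc
    have h3 : N * Real.sqrt (c / N) = Real.sqrt (N * c) := by
      have e : Real.sqrt (N * c) = Real.sqrt ((N : ℝ) ^ 2 * (c / N)) := by
        congr 1; field_simp
      rw [e, Real.sqrt_mul (by positivity), Real.sqrt_sq (by positivity)]
    linarith

end raw

section cells

variable {Ω τ : Type} [Fintype Ω] {S T U V : Type*}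

/-- **[YC], one pair `(k, b)`** -/
theorem yc (Q : Law Ω) (C : Pth Ω τ) {K : ℝ} {k b : ℕ} (X : Ω → S) (Y : Ω → T) (F : Ω → U)
    (hX : Stk.Fn Q Y (fun ω => (X ω, F ω)))
    (h4 : ∀ ω ω', 0 < Q.w ω → 0 < Q.w ω' → ¬ C.Bad K k b ω → ¬ C.Bad K k b ω' → F ω = F ω' →
      C.cell k b ω = C.cell k b ω') :
    colp Q X (C.cell k b) ≤ 2 * colp Q Y F + 3 * prE Q (C.Bad K k b) := by
  have h1 := colp_bad Q X (C.cell k b) F (C.Bad K k b) h4
  have h2 := colp_mono_var Q F hX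
  linarith

/-- **[YC], one pair, with an additional letter of the condition** -/
theorem yc2 (Q : Law Ω) (C : Pth Ω τ) {K : ℝ} {k b : ℕ} (X : Ω → S) (Y : Ω → T) (F : Ω → U)
    (hX : Stk.Fn Q Y (fun ω => (X ω, F ω)))
    (h4 : ∀ ω ω', 0 < Q.w ω → 0 < Q.w ω' → ¬ C.Bad K k b ω → ¬ C.Bad K k b ω' → F ω = F ω' →
      C.cell k b ω = C.cell k b ω')
    (E : Ω → V) (N : ℕ) (hN : 1 ≤ N) (hE : ∀ ω, 0 < Q.w ω →
      ∃ G : Finset V, G.card ≤ N ∧ ∀ ω', 0 < Q.w ω' → F ω' = F ω → E ω' ∈ G) {c : ℝ}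
    (hc : colp Q Y F ≤ c) :
    colp Q X (fun ω => (C.cell k b ω, E ω)) ≤ 4 * Real.sqrt (N * c) + 3 * prE Q (C.Bad K k b) := by
  have h1 := colp_bad Q X (fun ω => (C.cell k b ω, E ω)) (fun ω => (E ω, F ω)) (C.Bad K k b)
    fun ω ω' p p' n n' e => by
      simp only [Prod.mk.injEq] at e ⊢
      exact ⟨h4 ω ω' p p' n n' e.2, e.1⟩
  have h2 := colp_mono_var Q F hX
  have h3 := colp_extra' Q X E F N hE hN (h2.trans hc)
  linarith

/-- **[YC], summed over pairs**, for the generic offsets -/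
theorem yc_sum (Q : Law Ω) (C : Pth Ω τ) {K ε : ℝ} {ι : Type*} (I : Finset ι) (k b : ι → ℕ)
    (X : ι → Ω → S) (Y : ι → Ω → T) (F : ι → Ω → U)
    (hgen : ∑ x ∈ I, prE Q (C.Bad K (k x) (b x)) ≤ 14 * K * I.card * q2 C.μ)
    (hX : ∀ x ∈ I, Stk.Fn Q (Y x) (fun ω => (X x ω, F x ω)))
    (h4 : ∀ x ∈ I, ∀ ω ω', 0 < Q.w ω → 0 < Q.w ω' → ¬ C.Bad K (k x) (b x) ω →
      ¬ C.Bad K (k x) (b x) ω' → F x ω = F x ω' → C.cell (k x) (b x) ω = C.cell (k x) (b x) ω')
    (hc : ∀ x ∈ I, colp Q (Y x) (F x) ≤ 32 * ε) :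
    ∑ x ∈ I, colp Q (X x) (C.cell (k x) (b x)) ≤ I.card * (64 * ε + 42 * K * q2 C.μ) := by
  have h1 : ∀ x ∈ I, colp Q (X x) (C.cell (k x) (b x)) ≤
      64 * ε + 3 * prE Q (C.Bad K (k x) (b x)) := fun x hx => by
    have := yc Q C (X x) (Y x) (F x) (hX x hx) (h4 x hx)
    have := hc x hx
    linarith
  refine (Finset.sum_le_sum h1).trans ?_
  have e : ∑ x ∈ I, 3 * prE Q (C.Bad K (k x) (b x)) = 3 * ∑ x ∈ I, prE Q (C.Bad K (k x) (b x)) :=
    (Finset.mul_sum _ _ _).symm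
  rw [Finset.sum_add_distrib, e, Finset.sum_const, nsmul_eq_mul]
  linarith

/-- **[YC], summed over pairs, with an additional letter of the condition** -/
theorem yc2_sum (Q : Law Ω) (C : Pth Ω τ) {K ε : ℝ} {ι : Type*} (I : Finset ι) (k b : ι → ℕ)
    (X : ι → Ω → S) (Y : ι → Ω → T) (F : ι → Ω → U)
    (hgen : ∑ x ∈ I, prE Q (C.Bad K (k x) (b x)) ≤ 14 * K * I.card * q2 C.μ)
    (hX : ∀ x ∈ I, Stk.Fn Q (Y x) (fun ω => (X x ω, F x ω)))
    (h4 : ∀ x ∈ I, ∀ ω ω', 0 < Q.w ω → 0 < Q.w ω' → ¬ C.Bad K (k x) (b x) ω →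
      ¬ C.Bad K (k x) (b x) ω' → F x ω = F x ω' → C.cell (k x) (b x) ω = C.cell (k x) (b x) ω')
    (E : ι → Ω → V) (N : ℕ) (hN : 1 ≤ N) (hE : ∀ x ∈ I, ∀ ω, 0 < Q.w ω →
      ∃ G : Finset V, G.card ≤ N ∧ ∀ ω', 0 < Q.w ω' → F x ω' = F x ω → E x ω' ∈ G)
    (hc : ∀ x ∈ I, colp Q (Y x) (F x) ≤ 32 * ε) :
    ∑ x ∈ I, colp Q (X x) (fun ω => (C.cell (k x) (b x) ω, E x ω)) ≤
      I.card * (4 * Real.sqrt (32 * N * ε) + 42 * K * q2 C.μ) := by
  have h1 : ∀ x ∈ I, colp Q (X x) (fun ω => (C.cell (k x) (b x) ω, E x ω)) ≤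
      4 * Real.sqrt (32 * N * ε) + 3 * prE Q (C.Bad K (k x) (b x)) := fun x hx => by
    have := yc2 Q C (X x) (Y x) (F x) (hX x hx) (h4 x hx) (E x) N hN (hE x hx) (hc x hx)
    rwa [show (N : ℝ) * (32 * ε) = 32 * N * ε by ring] at this
  refine (Finset.sum_le_sum h1).trans ?_
  have e : ∑ x ∈ I, 3 * prE Q (C.Bad K (k x) (b x)) = 3 * ∑ x ∈ I, prE Q (C.Bad K (k x) (b x)) :=
    (Finset.mul_sum _ _ _).symm
  rw [Finset.sum_add_distrib, e, Finset.sum_const, nsmul_eq_mul]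
  linarith

end cells

end Vale.Agent.P106.U.H300
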