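import Vale.Agent.P127.Stk.LibEnt

/-!
# P106 / U / H300 : entropy of the words of a matched family (helper300)

Levels `a = 0, 1, ..` in blocks.  `X a` : depth of the intervals, `w a ≤ X a` : known depth; the lag is
`X a - w a`.  When the lag is `≥ 2 + tol` the known depth is the same at the next level.

* `code` : `H(word w | Z) ≤ E ∑_a cst a`, where `Z` determines `X`, the reference word `w'` and `w 0`;
* `amort` : the part with a large new lag costs at most `s (n + X n)`;
* `lagw` : the two together;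
* `lagw0` : no reference word;
* `count` : in a monotone chain of words a level has at most `D0` changes with new lag `< D0`.
-/

set_option autoImplicit false

namespace Vale.Agent.P106.U.H300

open Finset Vale.Agent.P127 Vale.Agent.P127.Stk

/-- the word up to the level `n` -/
def pre (n : ℕ) (f : ℕ → ℕ) : ℕ → ℕ := fun a => if a ≤ n then f a else 0

theorem pre_eq_iff {n : ℕ} {f g : ℕ → ℕ} : pre n f = pre n g ↔ ∀ a ≤ n, f a = g a := by
  constructor
  · intro h a ha
    have := congrFun h a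
    unfold pre at this
    rwa [if_pos ha, if_pos ha] at this
  · intro h
    funext a
    unfold pre
    split_ifs with ha
    · exact h a ha
    · rfl

theorem pre_of_le {n a : ℕ} (h : a ≤ n) (f : ℕ → ℕ) : pre n f a = f a := if_pos h

/-- the code -/
noncomputable def qk (tol : ℕ) (η : ℝ) (a : ℕ) (x : ℕ) (y : (ℕ → ℕ) × (ℕ → ℕ) × (ℕ → ℕ)) : ℝ :=
  if y.1 a + 2 + tol ≤ y.2.1 a then (if x = y.1 a then 1 else 0)
  else if x = y.2.2 (a + 1) then 1 - η
  else if x ≤ y.2.1 (a + 1) then η / (((y.2.1 (a + 1) - x : ℕ) : ℝ) + 2) ^ 2 else 0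

/-- the price of the level `a + 1` -/
noncomputable def cst (tol : ℕ) (η : ℝ) (w X w' : ℕ → ℕ) (a : ℕ) : ℝ :=
  if w a + 2 + tol ≤ X a then 0
  else if w (a + 1) = w' (a + 1) then - Real.log (1 - η)
  else - Real.log η + 2 * Real.log (((X (a + 1) - w (a + 1) : ℕ) : ℝ) + 2)

theorem sum_sq (N : ℕ) : ∑ d ∈ range N, 1 / ((d : ℝ) + 2) ^ 2 ≤ 1 - 1 / ((N : ℝ) + 1) := by
  induction N with
  | zero => simp
  | succ N ih =>
    rw [Finset.sum_range_succ]
    have h1 : (0 : ℝ) < (N : ℝ) + 1 := by positivity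
    have h2 : (0 : ℝ) < (N : ℝ) + 2 := by positivity
    have h3 : 1 / ((N : ℝ) + 2) ^ 2 ≤ 1 / ((N : ℝ) + 1) - 1 / ((N : ℝ) + 2) := by
      rw [div_sub_div _ _ h1.ne' h2.ne', div_le_div_iff₀ (by positivity) (by positivity)]
      nlinarith
    push_cast
    have h4 : (N : ℝ) + 1 + 1 = (N : ℝ) + 2 := by ring
    rw [h4]
    linarith

theorem sum_sq_F (N : ℕ) (F : Finset ℕ) (hF : ∀ x ∈ F, x ≤ N) :
    ∑ x ∈ F, 1 / (((N - x : ℕ) : ℝ) + 2) ^ 2 ≤ 1 := by
  have h1 : ∑ x ∈ F, 1 / (((N - x : ℕ) : ℝ) + 2) ^ 2 ≤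
      ∑ x ∈ range (N + 1), 1 / (((N - x : ℕ) : ℝ) + 2) ^ 2 := by
    refine Finset.sum_le_sum_of_subset_of_nonneg (fun x hx => ?_) fun x _ _ => by positivity
    rw [Finset.mem_range]
    have := hF x hx
    omega
  have h2 := Finset.sum_range_reflect (fun d => 1 / ((d : ℝ) + 2) ^ 2) (N + 1)
  have h3 : ∑ x ∈ range (N + 1), 1 / (((N - x : ℕ) : ℝ) + 2) ^ 2 =
      ∑ d ∈ range (N + 1), 1 / ((d : ℝ) + 2) ^ 2 := by
    rw [← h2]
    refine Finset.sum_congr rfl fun x hx => ?_
    rw [Nat.add_sub_cancel]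
  have h4 := sum_sq (N + 1)
  have h5 : (0 : ℝ) ≤ 1 / (((N + 1 : ℕ) : ℝ) + 1) := by positivity
  linarith

theorem qk_nonneg (tol : ℕ) {η : ℝ} (h0 : 0 < η) (h1 : η < 1) (a x : ℕ)
    (y : (ℕ → ℕ) × (ℕ → ℕ) × (ℕ → ℕ)) : 0 ≤ qk tol η a x y := by
  unfold qk
  split_ifs
  · exact zero_le_one
  · exact le_rfl
  · linarith
  · positivity
  · exact le_rfl

theorem qk_sum (tol : ℕ) {η : ℝ} (h0 : 0 < η) (h1 : η < 1) (a : ℕ)
    (y : (ℕ → ℕ) × (ℕ → ℕ) × (ℕ → ℕ)) (F : Finset ℕ) : ∑ x ∈ F, qk tol η a x y ≤ 1 := by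
  classical
  unfold qk
  by_cases h : y.1 a + 2 + tol ≤ y.2.1 a
  · simp only [if_pos h]
    rw [Finset.sum_ite_eq' F (y.1 a) (fun _ => (1 : ℝ))]
    split_ifs
    · exact le_rfl
    · exact zero_le_one
  · simp only [if_neg h]
    have e : ∀ x ∈ F, (if x = y.2.2 (a + 1) then 1 - η else if x ≤ y.2.1 (a + 1) then
        η / (((y.2.1 (a + 1) - x : ℕ) : ℝ) + 2) ^ 2 else 0) ≤
        (if x = y.2.2 (a + 1) then 1 - η else 0) + (if x ≤ y.2.1 (a + 1) then
        η / (((y.2.1 (a + 1) - x : ℕ) : ℝ) + 2) ^ 2 else 0) := by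
      intro x _
      split_ifs with h2 h3
      · have : 0 ≤ η / (((y.2.1 (a + 1) - x : ℕ) : ℝ) + 2) ^ 2 := by positivity
        linarith
      · linarith
      · linarith
      · linarith
    refine (Finset.sum_le_sum e).trans ?_
    rw [Finset.sum_add_distrib]
    have e1 : ∑ x ∈ F, (if x = y.2.2 (a + 1) then 1 - η else 0) ≤ 1 - η := by
      rw [Finset.sum_ite_eq' F (y.2.2 (a + 1)) (fun _ => (1 - η : ℝ))]
      split_ifs
      · exact le_rfl
      · linarith
    have e2 : ∑ x ∈ F, (if x ≤ y.2.1 (a + 1) then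
        η / (((y.2.1 (a + 1) - x : ℕ) : ℝ) + 2) ^ 2 else 0) ≤ η := by
      rw [← Finset.sum_filter]
      have e3 := sum_sq_F (y.2.1 (a + 1)) (F.filter fun x => x ≤ y.2.1 (a + 1))
        (fun x hx => (Finset.mem_filter.1 hx).2)
      have e4 : ∑ x ∈ F.filter (fun x => x ≤ y.2.1 (a + 1)),
          η / (((y.2.1 (a + 1) - x : ℕ) : ℝ) + 2) ^ 2 =
          η * ∑ x ∈ F.filter (fun x => x ≤ y.2.1 (a + 1)),
            1 / (((y.2.1 (a + 1) - x : ℕ) : ℝ) + 2) ^ 2 := by
        rw [Finset.mul_sum]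
        refine Finset.sum_congr rfl fun x _ => ?_
        ring
      rw [e4]
      nlinarith
    linarith

section ent

variable {Ω : Type} [Fintype Ω] (P : Law Ω) {T : Type*}

/-- **the code of a word** -/
theorem code (n tol : ℕ) {η : ℝ} (h0 : 0 < η) (h1 : η < 1) (w X w' : Ω → ℕ → ℕ) (Z : Ω → T)
    (hle : ∀ ω, 0 < P.w ω → ∀ a ≤ n, w ω a ≤ X ω a)
    (hd : ∀ ω, 0 < P.w ω → ∀ a < n, w ω a + 2 + tol ≤ X ω a → w ω (a + 1) = w ω a)
    (hZX : Fn P (fun ω => pre n (X ω)) Z) (hZw : Fn P (fun ω => pre n (w' ω)) Z) :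
    hc P (fun ω => pre n (w ω)) Z ≤ hc P (fun ω => w ω 0) Z +
      P.ex (fun ω => ∑ a ∈ range n, cst tol η (w ω) (X ω) (w' ω) a) := by
  have key : ∀ j, j ≤ n → hc P (fun ω => pre j (w ω)) Z ≤ hc P (fun ω => w ω 0) Z +
      P.ex (fun ω => ∑ a ∈ range j, cst tol η (w ω) (X ω) (w' ω) a) := by
    intro j
    induction j with
    | zero =>
      intro _
      have e : hc P (fun ω => pre 0 (w ω)) Z ≤ hc P (fun ω => w ω 0) Z := by
        refine hc_mono_left P fun ω ω' _ _ e => ?_
        rw [pre_eq_iff]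
        intro a ha
        rw [Nat.le_zero.1 ha]
        exact congrArg Prod.fst e
      simpa [P.ex_const] using e
    | succ j ih =>
      intro hj
      have hj' : j < n := hj
      have s1 : hc P (fun ω => pre (j + 1) (w ω)) Z ≤
          hc P (fun ω => (pre j (w ω), w ω (j + 1))) Z := by
        refine hc_mono_left P fun ω ω' _ _ e => ?_
        simp only [Prod.mk.injEq] at e
        rw [pre_eq_iff]
        intro a ha
        rcases Nat.lt_or_ge a (j + 1) with h | h
        · exact pre_eq_iff.1 e.1.1 a (by omega)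
        · have : a = j + 1 := by omega
          rw [this]
          exact e.1.2
      rw [hc_pair] at s1
      have s2 : hc P (fun ω => w ω (j + 1)) (fun ω => (pre j (w ω), Z ω)) ≤
          hc P (fun ω => w ω (j + 1)) (fun ω => (pre j (w ω), pre n (X ω), pre n (w' ω))) := by
        refine hc_mono_right P _ fun ω ω' p p' e => ?_
        simp only [Prod.mk.injEq] at e ⊢
        exact ⟨e.1, hZX ω ω' p p' e.2, hZw ω ω' p p' e.2⟩
      have s3 := P.gibbs_cond (fun ω => w ω (j + 1))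
        (fun ω => (pre j (w ω), pre n (X ω), pre n (w' ω)))
        (fun x y => qk tol η j x y) (fun x y => qk_nonneg tol h0 h1 j x y)
        (fun y F => qk_sum tol h0 h1 j y F) (by
          intro ω hω
          unfold qk
          simp only [pre_of_le le_rfl, pre_of_le hj'.le, pre_of_le hj]
          split_ifs with a1 a2 a3 a4
          · exact one_pos
          · exact absurd (hd ω hω j hj' a1) a2
          · linarith
          · positivity
          · exact absurd (hle ω hω (j + 1) hj) a4)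
      have s4 : P.ex (fun ω => - Real.log (qk tol η j (w ω (j + 1))
          (pre j (w ω), pre n (X ω), pre n (w' ω)))) =
          P.ex (fun ω => cst tol η (w ω) (X ω) (w' ω) j) := by
        refine P.ex_congr fun ω hω => ?_
        unfold qk cst
        simp only [pre_of_le le_rfl, pre_of_le hj'.le, pre_of_le hj]
        have a5 := hle ω hω (j + 1) hj
        by_cases a1 : w ω j + 2 + tol ≤ X ω j
        · rw [if_pos a1, if_pos a1, if_pos (hd ω hω j hj' a1), Real.log_one, neg_zero]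
        · rw [if_neg a1, if_neg a1]
          by_cases a2 : w ω (j + 1) = w' ω (j + 1)
          · rw [if_pos a2, if_pos a2]
          · rw [if_neg a2, if_neg a2, if_pos a5]
            have a6 : (0 : ℝ) < ((X ω (j + 1) - w ω (j + 1) : ℕ) : ℝ) + 2 := by positivity
            rw [Real.log_div h0.ne' (by positivity), Real.log_pow]
            push_cast
            ring
      have s5 : hc P (fun ω => w ω (j + 1)) (fun ω => (pre j (w ω), pre n (X ω), pre n (w' ω))) ≤
          P.ex (fun ω => cst tol η (w ω) (X ω) (w' ω) j) := by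
        rw [← s4]
        exact s3
      simp only [Finset.sum_range_succ]
      rw [P.ex_add]
      have s6 := ih (by omega)
      linarith
  exact key n le_rfl

end ent

/-! ### the amortised price -/

/-- the price with a large new lag, at a free level -/
noncomputable def big (tol D0 : ℕ) (g : ℕ → ℝ) (w X w' : ℕ → ℕ) (a : ℕ) : ℝ :=
  if w a + 2 + tol ≤ X a then 0
  else if w (a + 1) = w' (a + 1) then 0
  else if D0 ≤ X (a + 1) - w (a + 1) then g (X (a + 1) - w (a + 1)) else 0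

/-- **amortisation** -/
theorem amort (n tol D0 : ℕ) {s : ℝ} (hs : 0 ≤ s) (g : ℕ → ℝ)
    (hg : ∀ d, D0 ≤ d → g d ≤ s * ((d : ℝ) - tol - 1)) (w X w' : ℕ → ℕ)
    (hle : ∀ a ≤ n, w a ≤ X a) (hX : ∀ a < n, X a ≤ X (a + 1) + 1)
    (hd : ∀ a < n, w a + 2 + tol ≤ X a → w (a + 1) = w a) :
    ∑ a ∈ range n, big tol D0 g w X w' a ≤ s * (n + X n) := by
  set Φ : ℕ → ℝ := fun a => s * max (((X a - w a : ℕ) : ℝ) - (tol + 1)) 0 with hΦ
  have hΦ0 : ∀ a, 0 ≤ Φ a := fun a => mul_nonneg hs (le_max_right _ _)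
  have step : ∀ a < n, big tol D0 g w X w' a ≤ s + Φ (a + 1) - Φ a := by
    intro a ha
    unfold big
    have l1 := hle a ha.le
    have l2 := hle (a + 1) ha
    have l3 := hX a ha
    by_cases h : w a + 2 + tol ≤ X a
    · rw [if_pos h]
      have e := hd a ha h
      have h1 : X a - w a ≤ (X (a + 1) - w (a + 1)) + 1 := by omega
      have h2 : ((X a - w a : ℕ) : ℝ) ≤ ((X (a + 1) - w (a + 1) : ℕ) : ℝ) + 1 := by exact_mod_cast h1
      have h3 : max (((X a - w a : ℕ) : ℝ) - (tol + 1)) 0 ≤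
          max (((X (a + 1) - w (a + 1) : ℕ) : ℝ) - (tol + 1)) 0 + 1 := by
        refine max_le ?_ ?_
        · have := le_max_left (((X (a + 1) - w (a + 1) : ℕ) : ℝ) - (tol + 1)) 0
          linarith
        · have := le_max_right (((X (a + 1) - w (a + 1) : ℕ) : ℝ) - (tol + 1)) 0
          linarith
      have h4 := mul_le_mul_of_nonneg_left h3 hs
      simp only [hΦ]
      linarith
    · rw [if_neg h]
      have e0 : Φ a = 0 := by
        have h1 : X a - w a ≤ tol + 1 := by omega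
        have h2 : ((X a - w a : ℕ) : ℝ) ≤ (tol : ℝ) + 1 := by exact_mod_cast h1
        simp only [hΦ]
        rw [max_eq_right (by linarith), mul_zero]
      rw [e0]
      split_ifs with h2 h3
      · have := hΦ0 (a + 1)
        linarith
      · have h4 := hg _ h3
        have h5 : s * (((X (a + 1) - w (a + 1) : ℕ) : ℝ) - tol - 1) ≤ Φ (a + 1) := by
          simp only [hΦ]
          refine mul_le_mul_of_nonneg_left ?_ hs
          refine le_trans (le_of_eq ?_) (le_max_left _ _)
          ring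
        linarith
      · have := hΦ0 (a + 1)
        linarith
  have tot : ∑ a ∈ range n, big tol D0 g w X w' a ≤ s * n + Φ n - Φ 0 := by
    have h1 : ∑ a ∈ range n, big tol D0 g w X w' a ≤ ∑ a ∈ range n, (s + (Φ (a + 1) - Φ a)) := by
      refine Finset.sum_le_sum fun a ha => ?_
      have := step a (Finset.mem_range.1 ha)
      linarith
    rw [Finset.sum_add_distrib, Finset.sum_range_sub, Finset.sum_const, Finset.card_range,
      nsmul_eq_mul] at h1
    linarith
  have hn : Φ n ≤ s * X n := by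
    simp only [hΦ]
    refine mul_le_mul_of_nonneg_left ?_ hs
    refine max_le ?_ (by positivity)
    have h1 : X n - w n ≤ X n := Nat.sub_le _ _
    have h2 : ((X n - w n : ℕ) : ℝ) ≤ X n := by exact_mod_cast h1
    have : (0 : ℝ) ≤ tol := by positivity
    linarith
  have := hΦ0 0
  linarith

open Classical in
/-- number of the levels with a change and a small new lag -/
noncomputable def chg (n D0 : ℕ) (w X w' : ℕ → ℕ) : ℕ :=
  ((range n).filter fun a => w (a + 1) ≠ w' (a + 1) ∧ X (a + 1) - w (a + 1) < D0).card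

theorem cst_le (tol D0 : ℕ) {η : ℝ} (h0 : 0 < η) (h1 : η < 1) (w X w' : ℕ → ℕ) (a : ℕ) :
    cst tol η w X w' a ≤ - Real.log (1 - η) +
      (if w (a + 1) ≠ w' (a + 1) ∧ X (a + 1) - w (a + 1) < D0 then
        (- Real.log η + 2 * Real.log ((D0 : ℝ) + 2)) else 0) +
      big tol D0 (fun d => - Real.log η + 2 * Real.log ((d : ℝ) + 2)) w X w' a := by
  have l1 : 0 ≤ - Real.log (1 - η) := by
    have := Real.log_nonpos (by linarith : (0 : ℝ) ≤ 1 - η) (by linarith)
    linarith
  have l2 : 0 ≤ - Real.log η := by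
    have := Real.log_nonpos h0.le h1.le
    linarith
  have l3 : 0 ≤ Real.log ((D0 : ℝ) + 2) := Real.log_nonneg (by
    have : (0 : ℝ) ≤ D0 := by positivity
    linarith)
  unfold cst big
  by_cases c1 : w a + 2 + tol ≤ X a
  · rw [if_pos c1, if_pos c1]
    split_ifs
    · linarith
    · linarith
  · rw [if_neg c1, if_neg c1]
    by_cases c2 : w (a + 1) = w' (a + 1)
    · rw [if_pos c2, if_pos c2, if_neg (by tauto)]
      linarith
    · rw [if_neg c2, if_neg c2]
      by_cases c3 : D0 ≤ X (a + 1) - w (a + 1)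
      · rw [if_pos c3, if_neg (by omega)]
        linarith
      · rw [if_neg c3, if_pos ⟨c2, by omega⟩]
        have c4 : ((X (a + 1) - w (a + 1) : ℕ) : ℝ) ≤ D0 := by
          have : X (a + 1) - w (a + 1) ≤ D0 := by omega
          exact_mod_cast this
        have c5 : Real.log (((X (a + 1) - w (a + 1) : ℕ) : ℝ) + 2) ≤ Real.log ((D0 : ℝ) + 2) :=
          Real.log_le_log (by positivity) (by linarith)
        linarith

section ent2

variable {Ω : Type} [Fintype Ω] (P : Law Ω) {T : Type*}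

/-- **[LAGW]** -/
theorem lagw (n tol D0 : ℕ) {η s : ℝ} (h0 : 0 < η) (h1 : η < 1) (hs : 0 ≤ s)
    (hg : ∀ d : ℕ, D0 ≤ d → - Real.log η + 2 * Real.log ((d : ℝ) + 2) ≤ s * ((d : ℝ) - tol - 1))
    (w X w' : Ω → ℕ → ℕ) (Z : Ω → T)
    (hle : ∀ ω, 0 < P.w ω → ∀ a ≤ n, w ω a ≤ X ω a)
    (hX : ∀ ω, 0 < P.w ω → ∀ a < n, X ω a ≤ X ω (a + 1) + 1)
    (hd : ∀ ω, 0 < P.w ω → ∀ a < n, w ω a + 2 + tol ≤ X ω a → w ω (a + 1) = w ω a)
    (hZX : Fn P (fun ω => pre n (X ω)) Z) (hZw : Fn P (fun ω => pre n (w' ω)) Z) :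
    hc P (fun ω => pre n (w ω)) Z ≤ hc P (fun ω => w ω 0) Z + (n * (- Real.log (1 - η)) +
      (- Real.log η + 2 * Real.log ((D0 : ℝ) + 2)) * P.ex (fun ω => (chg n D0 (w ω) (X ω) (w' ω) : ℝ)) +
      s * (n + P.ex (fun ω => (X ω n : ℝ)))) := by
  classical
  refine (code P n tol h0 h1 w X w' Z hle hd hZX hZw).trans ?_
  refine add_le_add le_rfl ?_
  have h2 : ∀ ω, 0 < P.w ω → ∑ a ∈ range n, cst tol η (w ω) (X ω) (w' ω) a ≤
      (n * (- Real.log (1 - η)) + s * n) +
      ((- Real.log η + 2 * Real.log ((D0 : ℝ) + 2)) * (chg n D0 (w ω) (X ω) (w' ω) : ℝ) +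
        s * (X ω n : ℝ)) := by
    intro ω hω
    have e1 := Finset.sum_le_sum fun a (_ : a ∈ range n) => cst_le tol D0 h0 h1 (w ω) (X ω) (w' ω) a
    rw [Finset.sum_add_distrib, Finset.sum_add_distrib, Finset.sum_const, Finset.card_range,
      nsmul_eq_mul] at e1
    have e2 : ∑ a ∈ range n, (if w ω (a + 1) ≠ w' ω (a + 1) ∧ X ω (a + 1) - w ω (a + 1) < D0 then
        (- Real.log η + 2 * Real.log ((D0 : ℝ) + 2)) else 0) =
        (- Real.log η + 2 * Real.log ((D0 : ℝ) + 2)) * (chg n D0 (w ω) (X ω) (w' ω) : ℝ) := by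
      unfold chg
      rw [← Finset.sum_filter, Finset.sum_const, nsmul_eq_mul]
      ring_nf
    have e3 := amort n tol D0 hs (fun d => - Real.log η + 2 * Real.log ((d : ℝ) + 2)) hg (w ω)
      (X ω) (w' ω) (hle ω hω) (hX ω hω) (hd ω hω)
    rw [e2] at e1
    linarith
  refine (P.ex_mono h2).trans (le_of_eq ?_)
  rw [P.ex_add, P.ex_const, P.ex_add, P.ex_const_mul, P.ex_const_mul]
  ring

/-- no reference word -/
theorem lagw0 (n tol D0 : ℕ) {η s : ℝ} (h0 : 0 < η) (h1 : η < 1) (hs : 0 ≤ s)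
    (hg : ∀ d : ℕ, D0 ≤ d → - Real.log η + 2 * Real.log ((d : ℝ) + 2) ≤ s * ((d : ℝ) - tol - 1))
    (w X : Ω → ℕ → ℕ) (Z : Ω → T)
    (hle : ∀ ω, 0 < P.w ω → ∀ a ≤ n, w ω a ≤ X ω a)
    (hX : ∀ ω, 0 < P.w ω → ∀ a < n, X ω a ≤ X ω (a + 1) + 1)
    (hd : ∀ ω, 0 < P.w ω → ∀ a < n, w ω a + 2 + tol ≤ X ω a → w ω (a + 1) = w ω a)
    (hZX : Fn P (fun ω => pre n (X ω)) Z) :
    hc P (fun ω => pre n (w ω)) Z ≤ hc P (fun ω => w ω 0) Z + (n * (- Real.log (1 - η)) +
      (- Real.log η + 2 * Real.log ((D0 : ℝ) + 2)) * n +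
      s * (n + P.ex (fun ω => (X ω n : ℝ)))) := by
  refine (lagw P n tol D0 h0 h1 hs hg w X X Z hle hX hd hZX hZX).trans ?_
  refine add_le_add le_rfl ?_
  have l2 : 0 ≤ - Real.log η := by
    have := Real.log_nonpos h0.le h1.le
    linarith
  have l3 : 0 ≤ Real.log ((D0 : ℝ) + 2) := Real.log_nonneg (by
    have : (0 : ℝ) ≤ D0 := by positivity
    linarith)
  have h2 : P.ex (fun ω => (chg n D0 (w ω) (X ω) (X ω) : ℝ)) ≤ n := by
    refine (P.ex_mono (g := fun _ => (n : ℝ)) fun ω _ => ?_).trans (le_of_eq (P.ex_const _))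
    have : chg n D0 (w ω) (X ω) (X ω) ≤ n := by
      unfold chg
      exact (Finset.card_filter_le _ _).trans (by rw [Finset.card_range])
    exact_mod_cast this
  have := mul_le_mul_of_nonneg_left h2 (by linarith : 0 ≤ - Real.log η + 2 * Real.log ((D0 : ℝ) + 2))
  linarith

/-- the first `k + 1` words -/
def jw (n k : ℕ) (w : ℕ → Ω → ℕ → ℕ) (ω : Ω) : ℕ → ℕ → ℕ :=
  fun j => if j ≤ k then pre n (w j ω) else fun _ => 0

omit [Fintype Ω] in
theorem jw_eq_iff {n k : ℕ} {w : ℕ → Ω → ℕ → ℕ} {ω ω' : Ω} :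
    jw n k w ω = jw n k w ω' ↔ ∀ j ≤ k, pre n (w j ω) = pre n (w j ω') := by
  constructor
  · intro h j hj
    have := congrFun h j
    unfold jw at this
    rwa [if_pos hj, if_pos hj] at this
  · intro h
    funext j
    unfold jw
    split_ifs with hj
    · exact h j hj
    · rfl

/-- **[LAGW], the joint word of a window** `w 0, .., w N` -/
theorem lagj (n tol D0 D1 N : ℕ) {η s s1 : ℝ} (h0 : 0 < η) (h1 : η < 1) (hs : 0 ≤ s)
    (hs1 : 0 ≤ s1)
    (hg : ∀ d : ℕ, D0 ≤ d → - Real.log η + 2 * Real.log ((d : ℝ) + 2) ≤ s * ((d : ℝ) - tol - 1))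
    (hg1 : ∀ d : ℕ, D1 ≤ d → - Real.log (1 / 2) + 2 * Real.log ((d : ℝ) + 2) ≤
      s1 * ((d : ℝ) - tol - 1))
    (w : ℕ → Ω → ℕ → ℕ) (X : Ω → ℕ → ℕ) (Z : Ω → T)
    (hle : ∀ k ≤ N, ∀ ω, 0 < P.w ω → ∀ a ≤ n, w k ω a ≤ X ω a)
    (hX : ∀ ω, 0 < P.w ω → ∀ a < n, X ω a ≤ X ω (a + 1) + 1)
    (hd : ∀ k ≤ N, ∀ ω, 0 < P.w ω → ∀ a < n, w k ω a + 2 + tol ≤ X ω a → w k ω (a + 1) = w k ω a)
    (hZX : Fn P (fun ω => pre n (X ω)) Z) {A : ℝ} (hA : ∀ k ≤ N, hc P (fun ω => w k ω 0) Z ≤ A) :
    hc P (jw n N w) Z ≤ (N + 1) * A + n * (Real.log 2 + (Real.log 2 + 2 * Real.log ((D1 : ℝ) + 2))) +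
      s1 * (n + P.ex (fun ω => (X ω n : ℝ))) +
      N * (n * (- Real.log (1 - η)) + s * (n + P.ex (fun ω => (X ω n : ℝ)))) +
      (- Real.log η + 2 * Real.log ((D0 : ℝ) + 2)) *
        ∑ k ∈ range N, P.ex (fun ω => (chg n D0 (w (k + 1) ω) (X ω) (w k ω) : ℝ)) := by
  have key : ∀ j, j ≤ N → hc P (jw n j w) Z ≤
      (j + 1) * A + n * (Real.log 2 + (Real.log 2 + 2 * Real.log ((D1 : ℝ) + 2))) +
      s1 * (n + P.ex (fun ω => (X ω n : ℝ))) +
      j * (n * (- Real.log (1 - η)) + s * (n + P.ex (fun ω => (X ω n : ℝ)))) +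
      (- Real.log η + 2 * Real.log ((D0 : ℝ) + 2)) *
        ∑ k ∈ range j, P.ex (fun ω => (chg n D0 (w (k + 1) ω) (X ω) (w k ω) : ℝ)) := by
    intro j
    induction j with
    | zero =>
      intro _
      have e1 : hc P (jw n 0 w) Z ≤ hc P (fun ω => pre n (w 0 ω)) Z := by
        refine hc_mono_left P fun ω ω' _ _ e => ?_
        rw [jw_eq_iff]
        intro i hi
        rw [Nat.le_zero.1 hi]
        exact congrArg Prod.fst e
      have e2 := lagw0 P n tol D1 (η := 1 / 2) (by norm_num) (by norm_num) hs1 hg1 (w 0) X Z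
        (hle 0 (Nat.zero_le _)) hX (hd 0 (Nat.zero_le _)) hZX
      have e3 := hA 0 (Nat.zero_le _)
      have e4 : Real.log (1 / 2 : ℝ) = - Real.log 2 := by
        rw [one_div, Real.log_inv]
      have e5 : (1 : ℝ) - 1 / 2 = 1 / 2 := by norm_num
      rw [e5, e4] at e2
      simp only [Finset.range_zero, Finset.sum_empty, mul_zero, Nat.cast_zero, zero_mul, add_zero,
        zero_add, one_mul]
      refine e1.trans (e2.trans ?_)
      nlinarith
    | succ j ih =>
      intro hj
      have e1 : hc P (jw n (j + 1) w) Z ≤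
          hc P (fun ω => (jw n j w ω, pre n (w (j + 1) ω))) Z := by
        refine hc_mono_left P fun ω ω' _ _ e => ?_
        simp only [Prod.mk.injEq] at e
        rw [jw_eq_iff]
        intro i hi
        rcases Nat.lt_or_ge i (j + 1) with h | h
        · exact jw_eq_iff.1 e.1.1 i (by omega)
        · have : i = j + 1 := by omega
          rw [this]
          exact e.1.2
      rw [hc_pair] at e1
      have e2 := lagw P n tol D0 h0 h1 hs hg (w (j + 1)) X (w j) (fun ω => (jw n j w ω, Z ω))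
        (hle (j + 1) hj) hX (hd (j + 1) hj) (fun ω ω' p p' e => hZX ω ω' p p' (congrArg Prod.snd e))
        (fun ω ω' _ _ e => jw_eq_iff.1 (congrArg Prod.fst e) j le_rfl)
      have e3 : hc P (fun ω => w (j + 1) ω 0) (fun ω => (jw n j w ω, Z ω)) ≤ A :=
        (hc_mono_right P _ fun ω ω' _ _ e => congrArg Prod.snd e).trans (hA (j + 1) hj)
      have e4 := ih (by omega)
      rw [Finset.sum_range_succ]
      push_cast
      nlinarith
  exact key N le_rfl

end ent2

/-! ### the number of changes in a monotone chain -/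

open Classical in
/-- a level has at most `D0` changes with new lag `< D0` -/
theorem count_one (B D0 : ℕ) (X : ℕ) (w : ℕ → ℕ) (hle : ∀ k, w k ≤ X)
    (hm : ∀ k < B, w k ≤ w (k + 1)) :
    ((range B).filter fun k => w (k + 1) ≠ w k ∧ X - w (k + 1) < D0).card ≤ D0 := by
  have mono : ∀ i j, i ≤ j → j ≤ B → w i ≤ w j := by
    intro i j hij
    induction j, hij using Nat.le_induction with
    | base => intro _; exact le_rfl
    | succ j _ ih =>
      intro hj
      exact (ih (by omega)).trans (hm j (by omega))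
  calc ((range B).filter fun k => w (k + 1) ≠ w k ∧ X - w (k + 1) < D0).card
      ≤ (range D0).card := by
        refine Finset.card_le_card_of_injOn (fun k => X - w (k + 1)) (fun k hk => ?_)
          (fun k hk l hl e => ?_)
        · simp only [Finset.coe_filter, Finset.mem_range, Set.mem_ofPred_eq] at hk
          simp only [Finset.coe_range, Set.mem_Iio]
          exact hk.2.2
        · simp only [Finset.coe_filter, Finset.mem_range, Set.mem_ofPred_eq] at hk hl
          have e' : X - w (k + 1) = X - w (l + 1) := e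
          have a1 := hle (k + 1)
          have a2 := hle (l + 1)
          by_contra hne
          rcases Nat.lt_or_gt_of_ne hne with h | h
          · have b1 := mono (k + 1) l (by omega) (by omega)
            have b2 := hm l hl.1
            have b3 := hl.2.1
            omega
          · have b1 := mono (l + 1) k (by omega) (by omega)
            have b2 := hm k hk.1
            have b3 := hk.2.1
            omega
    _ = D0 := Finset.card_range D0

open Classical in
/-- **the total number of changes in a chain** -/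
theorem count_chg (n B D0 : ℕ) (X : ℕ → ℕ) (w : ℕ → ℕ → ℕ) (hle : ∀ k a, w k a ≤ X a)
    (hm : ∀ k < B, ∀ a, w k a ≤ w (k + 1) a) :
    ∑ k ∈ range B, chg n D0 (w (k + 1)) X (w k) ≤ n * D0 := by
  unfold chg
  simp only [Finset.card_filter]
  rw [Finset.sum_comm]
  calc ∑ a ∈ range n, ∑ k ∈ range B,
        (if w (k + 1) (a + 1) ≠ w k (a + 1) ∧ X (a + 1) - w (k + 1) (a + 1) < D0 then 1 else 0)
      ≤ ∑ _a ∈ range n, D0 := by
        refine Finset.sum_le_sum fun a _ => ?_
        rw [← Finset.card_filter]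
        exact count_one B D0 (X (a + 1)) (fun k => w k (a + 1)) (fun k => hle k _)
          (fun k hk => hm k hk _)
    _ = n * D0 := by rw [Finset.sum_const, Finset.card_range, smul_eq_mul]

open Classical in
/-- spacing `s` : a level has at most `s D0` changes with new lag `< D0` -/
theorem count_one_s (B D0 s : ℕ) (X : ℕ) (w : ℕ → ℕ) (hle : ∀ k, w k ≤ X)
    (hm : ∀ k < B + s, w k ≤ w (k + 1)) :
    ((range B).filter fun k => w (k + s) ≠ w k ∧ X - w (k + s) < D0).card ≤ s * D0 := by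
  have mono : ∀ i j, i ≤ j → j ≤ B + s → w i ≤ w j := by
    intro i j hij
    induction j, hij using Nat.le_induction with
    | base => intro _; exact le_rfl
    | succ j _ ih =>
      intro hj
      exact (ih (by omega)).trans (hm j (by omega))
  rcases Nat.eq_zero_or_pos s with hs | hs
  · subst hs
    simp
  calc ((range B).filter fun k => w (k + s) ≠ w k ∧ X - w (k + s) < D0).card
      ≤ (range s ×ˢ range D0).card := by
        refine Finset.card_le_card_of_injOn (fun k => (k % s, X - w (k + s))) (fun k hk => ?_)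
          (fun k hk l hl e => ?_)
        · simp only [Finset.coe_filter, Finset.mem_range, Set.mem_ofPred_eq] at hk
          simp only [Finset.coe_product, Finset.coe_range, Set.mem_prod, Set.mem_Iio]
          exact ⟨Nat.mod_lt _ hs, hk.2.2⟩
        · simp only [Finset.coe_filter, Finset.mem_range, Set.mem_ofPred_eq] at hk hl
          simp only [Prod.mk.injEq] at e
          have a1 := hle (k + s)
          have a2 := hle (l + s)
          have far : ∀ {x y : ℕ}, x < y → x % s = y % s → x + s ≤ y := by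
            intro x y hxy hm'
            have h1 := Nat.div_add_mod x s
            have h2 := Nat.div_add_mod y s
            have h3 : x / s < y / s := by
              by_contra hcon
              have h4 : y / s ≤ x / s := not_lt.1 hcon
              have h5 : s * (y / s) ≤ s * (x / s) := Nat.mul_le_mul_left _ h4
              omega
            have h6 : s * (x / s) + s ≤ s * (y / s) := by
              calc s * (x / s) + s = s * (x / s + 1) := by ring
                _ ≤ s * (y / s) := Nat.mul_le_mul_left _ h3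
            omega
          by_contra hne
          rcases Nat.lt_or_gt_of_ne hne with h | h
          · have b0 := far h e.1
            have b1 := mono (k + s) l b0 (by omega)
            have b2 := mono l (l + s) (by omega) (by omega)
            have b3 := hl.2.1
            omega
          · have b0 := far h e.1.symm
            have b1 := mono (l + s) k b0 (by omega)
            have b2 := mono k (k + s) (by omega) (by omega)
            have b3 := hk.2.1
            omega
    _ = s * D0 := by rw [Finset.card_product, Finset.card_range, Finset.card_range]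

open Classical in
/-- **the total number of changes at the spacing `s`** -/
theorem count_chg_s (n B D0 s : ℕ) (X : ℕ → ℕ) (w : ℕ → ℕ → ℕ) (hle : ∀ k, ∀ a ≤ n, w k a ≤ X a)
    (hm : ∀ k < B + s, ∀ a ≤ n, w k a ≤ w (k + 1) a) :
    ∑ k ∈ range B, chg n D0 (w (k + s)) X (w k) ≤ n * (s * D0) := by
  unfold chg
  simp only [Finset.card_filter]
  rw [Finset.sum_comm]
  calc ∑ a ∈ range n, ∑ k ∈ range B,
        (if w (k + s) (a + 1) ≠ w k (a + 1) ∧ X (a + 1) - w (k + s) (a + 1) < D0 then 1 else 0)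
      ≤ ∑ _a ∈ range n, s * D0 := by
        refine Finset.sum_le_sum fun a ha => ?_
        have ha' : a + 1 ≤ n := Finset.mem_range.1 ha
        rw [← Finset.card_filter]
        exact count_one_s B D0 s (X (a + 1)) (fun k => w k (a + 1)) (fun k => hle k _ ha')
          (fun k hk => hm k hk _ ha')
    _ = n * (s * D0) := by rw [Finset.sum_const, Finset.card_range, smul_eq_mul]

/-- the same in the average -/
theorem ex_chg_s {Ω : Type} [Fintype Ω] (P : Law Ω) (n B D0 s : ℕ) (X : Ω → ℕ → ℕ)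
    (w : ℕ → Ω → ℕ → ℕ) (hle : ∀ ω, 0 < P.w ω → ∀ k, ∀ a ≤ n, w k ω a ≤ X ω a)
    (hm : ∀ ω, 0 < P.w ω → ∀ k < B + s, ∀ a ≤ n, w k ω a ≤ w (k + 1) ω a) :
    ∑ k ∈ range B, P.ex (fun ω => (chg n D0 (w (k + s) ω) (X ω) (w k ω) : ℝ)) ≤ n * (s * D0) := by
  have e : ∑ k ∈ range B, P.ex (fun ω => (chg n D0 (w (k + s) ω) (X ω) (w k ω) : ℝ)) =
      P.ex (fun ω => ∑ k ∈ range B, (chg n D0 (w (k + s) ω) (X ω) (w k ω) : ℝ)) := by
    unfold Law.ex
    rw [Finset.sum_comm]
    refine Finset.sum_congr rfl fun ω _ => ?_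
    rw [Finset.mul_sum]
  rw [e]
  refine (P.ex_mono (g := fun _ => (n * (s * D0) : ℝ)) fun ω hω => ?_).trans
    (le_of_eq (P.ex_const _))
  have := count_chg_s n B D0 s (X ω) (fun k => w k ω) (hle ω hω) (hm ω hω)
  exact_mod_cast this

/-! ### the constants -/

theorem lag_par1 (tol : ℕ) {η s : ℝ} (hs : 0 < s) :
    ∃ D0 : ℕ, ∀ d : ℕ, D0 ≤ d → - Real.log η + 2 * Real.log ((d : ℝ) + 2) ≤
      s * ((d : ℝ) - tol - 1) := by
  have h1 : ∀ᶠ x : ℝ in Filter.atTop, Real.log x ≤ s / 4 * x := by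
    have := Real.isLittleO_log_id_atTop.bound (show (0 : ℝ) < s / 4 by positivity)
    filter_upwards [this, Filter.eventually_ge_atTop (1 : ℝ)] with x hx hx1
    rw [Real.norm_eq_abs, Real.norm_eq_abs, id] at hx
    have h2 := (abs_le.1 hx).2
    rwa [abs_of_nonneg (by linarith : (0 : ℝ) ≤ x)] at h2
  have h2 : Filter.Tendsto (fun d : ℕ => (d : ℝ) + 2) Filter.atTop Filter.atTop :=
    Filter.tendsto_atTop_add_const_right _ _ tendsto_natCast_atTop_atTop
  have h3 : ∀ᶠ d : ℕ in Filter.atTop, Real.log ((d : ℝ) + 2) ≤ s / 4 * ((d : ℝ) + 2) :=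
    h2.eventually h1
  have h4 : ∀ᶠ d : ℕ in Filter.atTop, (- Real.log η + s * ((tol : ℝ) + 2)) / (s / 2) ≤ (d : ℝ) :=
    tendsto_natCast_atTop_atTop.eventually (Filter.eventually_ge_atTop _)
  obtain ⟨D0, hD⟩ := Filter.eventually_atTop.1 (h3.and h4)
  refine ⟨D0, fun d hd => ?_⟩
  obtain ⟨a1, a2⟩ := hD d hd
  rw [div_le_iff₀ (by positivity)] at a2
  nlinarith

theorem lag_par2 {ε : ℝ} (hε : 0 < ε) : ∃ η : ℝ, 0 < η ∧ η < 1 ∧ - Real.log (1 - η) ≤ ε := by
  refine ⟨1 - Real.exp (-ε), ?_, ?_, ?_⟩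
  · have : Real.exp (-ε) < 1 := by rw [Real.exp_lt_one_iff]; linarith
    linarith
  · have := Real.exp_pos (-ε)
    linarith
  · rw [sub_sub_cancel, Real.log_exp]
    linarith

/-- **[LAGW] with constants** : the joint word of `N + 1` words costs `(C₀ + ε) (n + E X n)` up to
the start letters and the changes with a small new lag; `C₀` depends on `tol` only -/
theorem lag_win (tol : ℕ) : ∃ C₀ : ℝ, 0 ≤ C₀ ∧ ∀ (N : ℕ) (ε : ℝ), 0 < ε → ∃ (D0 : ℕ) (C : ℝ),
    0 ≤ C ∧ ∀ {Ω : Type} [Fintype Ω] (P : Law Ω) {T : Type*} (n : ℕ) (w : ℕ → Ω → ℕ → ℕ)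
      (X : Ω → ℕ → ℕ) (Z : Ω → T),
      (∀ k ≤ N, ∀ ω, 0 < P.w ω → ∀ a ≤ n, w k ω a ≤ X ω a) →
      (∀ ω, 0 < P.w ω → ∀ a < n, X ω a ≤ X ω (a + 1) + 1) →
      (∀ k ≤ N, ∀ ω, 0 < P.w ω → ∀ a < n, w k ω a + 2 + tol ≤ X ω a → w k ω (a + 1) = w k ω a) →
      Fn P (fun ω => pre n (X ω)) Z → ∀ {A : ℝ}, (∀ k ≤ N, hc P (fun ω => w k ω 0) Z ≤ A) →
      hc P (jw n N w) Z ≤ (N + 1) * A + (C₀ + ε) * (n + P.ex (fun ω => (X ω n : ℝ))) +
        C * ∑ k ∈ range N, P.ex (fun ω => (chg n D0 (w (k + 1) ω) (X ω) (w k ω) : ℝ)) := by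
  obtain ⟨D1, hD1⟩ := lag_par1 tol (η := 1 / 2) (s := 1) one_pos
  have l3 : ∀ D : ℕ, 0 ≤ Real.log ((D : ℝ) + 2) := fun D => Real.log_nonneg (by
    have : (0 : ℝ) ≤ D := by positivity
    linarith)
  have l2 : 0 ≤ Real.log 2 := Real.log_nonneg (by norm_num)
  refine ⟨Real.log 2 + (Real.log 2 + 2 * Real.log ((D1 : ℝ) + 2)) + 1, ?_, ?_⟩
  · have := l3 D1
    linarith
  intro N ε hε
  set e := ε / (2 * (N + 1)) with he
  have hN : (0 : ℝ) < N + 1 := by positivity
  have he0 : 0 < e := by positivity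
  obtain ⟨η, h0, h1, h2⟩ := lag_par2 he0
  obtain ⟨D0, hD0⟩ := lag_par1 tol (η := η) he0
  have l4 : 0 ≤ - Real.log η := by
    have := Real.log_nonpos h0.le h1.le
    linarith
  refine ⟨D0, - Real.log η + 2 * Real.log ((D0 : ℝ) + 2), ?_, ?_⟩
  · have := l3 D0
    linarith
  intro Ω _ P T n w X Z hle hX hd hZX A hA
  refine (lagj P n tol D0 D1 N h0 h1 he0.le (s1 := 1) zero_le_one hD0 hD1 w X Z hle hX hd hZX
    hA).trans ?_
  set E := P.ex (fun ω => (X ω n : ℝ)) with hE
  have hE0 : 0 ≤ E := P.ex_nonneg fun ω _ => by positivity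
  have hn0 : (0 : ℝ) ≤ n := by positivity
  have hN0 : (0 : ℝ) ≤ N := by positivity
  have k1 : (N : ℝ) * (n * (- Real.log (1 - η)) + e * (n + E)) ≤ ε * (n + E) := by
    have k2 : n * (- Real.log (1 - η)) + e * (n + E) ≤ 2 * e * (n + E) := by
      have := mul_le_mul_of_nonneg_left h2 hn0
      nlinarith [mul_nonneg he0.le hE0]
    have k3 : (N : ℝ) * (2 * e) ≤ ε := by
      rw [he]
      have : (N : ℝ) * (2 * (ε / (2 * (N + 1)))) = ε * (N / (N + 1)) := by
        field_simp
      rw [this]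
      have k4 : (N : ℝ) / (N + 1) ≤ 1 := by
        rw [div_le_one hN]
        linarith
      nlinarith
    calc (N : ℝ) * (n * (- Real.log (1 - η)) + e * (n + E)) ≤ N * (2 * e * (n + E)) :=
          mul_le_mul_of_nonneg_left k2 hN0
      _ = N * (2 * e) * (n + E) := by ring
      _ ≤ ε * (n + E) := mul_le_mul_of_nonneg_right k3 (by positivity)
  have k5 : (n : ℝ) * (Real.log 2 + (Real.log 2 + 2 * Real.log ((D1 : ℝ) + 2))) ≤
      (Real.log 2 + (Real.log 2 + 2 * Real.log ((D1 : ℝ) + 2))) * (n + E) := by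
    have := l3 D1
    nlinarith [mul_nonneg (by linarith : 0 ≤ Real.log 2 + (Real.log 2 + 2 * Real.log ((D1 : ℝ) + 2))) hE0]
  linarith

end Vale.Agent.P106.U.H300
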